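import Crest.Agent.N265.Fib.P0
import Crest.Agent.R274.Sm1_9

-- ▼ part N265/Fib/P1
section

/-!
# Row 265, fibrewise theory (helper2): closed points and stalks

* `Pnt X`, `x.O` (local ring), `x.val` (value of a function), `x.In J`, `x.loc M` (stalk);
* local-global: `mem_of_loc`, `le_of_loc`, `eqv_of_loc`;
* stalks of `twX`, `piX`, `OP`, `mapX`, `preX`, `comapX`, `supX`, `genX`, `homX`.
-/

set_option autoImplicit false
set_option linter.unusedSectionVars false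
noncomputable section

namespace Crest.Agent.N265.Fib

open Crest.Agent.R274
open Cx_781 Defs_781 Ses_781 Lat_781 Ser_781 SnapA_99 SnapB_99 SnapC_99 SnapD_99 SnapE_99 Gen7_750
open Xs1_781 Filter SkDefs_474

universe u

variable {k : Type u} [Field k] {F : Type u} [Field F] [Algebra k F] {n : ℕ}
  {X : Defs_781.Var k F n}
  {U : Type u} [AddCommGroup U] [Module k U] [Module F U] [IsScalarTower k F U]
  {V : Type u} [AddCommGroup V] [Module k V] [Module F V] [IsScalarTower k F V]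
  {W : Type u} [AddCommGroup W] [Module k W] [Module F W] [IsScalarTower k F W]

/-- a rational point of `X`, given by its local ring -/
@[ext] structure Pnt (X : Defs_781.Var k F n) where
  O : Subalgebra k F
  ex : ∃ (i : Fin (n + 1)) (φ : X.A {i} →ₐ[k] k),
    ∀ f, f ∈ O ↔ ∃ b : X.A {i}, φ b ≠ 0 ∧ (b : F) * f ∈ X.A {i}

namespace Pnt
variable (x : Pnt X)

/-- a chart that contains `x` -/
def i : Fin (n + 1) := x.ex.choose
/-- evaluation on the chart ring -/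
def φ : X.A {x.i} →ₐ[k] k := x.ex.choose_spec.choose
theorem mem_O {f : F} : f ∈ x.O ↔ ∃ b : X.A {x.i}, x.φ b ≠ 0 ∧ (b : F) * f ∈ X.A {x.i} :=
  x.ex.choose_spec.choose_spec f
/-- `x` lies in the chart `J` -/
def In (J : Finset (Fin (n + 1))) : Prop := X.A J ≤ x.O
theorem in_i : x.In {x.i} := fun a ha => x.mem_O.2 ⟨1, by simp, by simpa using ha⟩

open Classical in
/-- the value of a function at `x` -/
def val (f : F) : k :=
  if h : f ∈ x.O then x.φ ⟨_, (x.mem_O.1 h).choose_spec.2⟩ / x.φ (x.mem_O.1 h).choose else 0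

variable {x}

theorem val_spec {f : F} (b : X.A {x.i}) (hb : x.φ b ≠ 0) (h : (b : F) * f ∈ X.A {x.i}) :
    x.val f = x.φ ⟨_, h⟩ / x.φ b := by
  have hf : f ∈ x.O := x.mem_O.2 ⟨b, hb, h⟩
  rw [val, dif_pos hf, div_eq_div_iff (x.mem_O.1 hf).choose_spec.1 hb, ← map_mul, ← map_mul]
  congr 1
  exact Subtype.ext (by simp only [MulMemClass.coe_mul]; ring)

theorem val_φ (a : X.A {x.i}) : x.val a = x.φ a := by
  rw [val_spec 1 (by simp) (by simp), map_one, div_one]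
  congr 1
  exact Subtype.ext (by simp)

theorem val_mul {f g : F} (hf : f ∈ x.O) (hg : g ∈ x.O) : x.val (f * g) = x.val f * x.val g := by
  obtain ⟨b, hb, h⟩ := x.mem_O.1 hf
  obtain ⟨c, hc, h'⟩ := x.mem_O.1 hg
  have e : ((b * c : X.A {x.i}) : F) * (f * g) = (b * f) * (c * g) := by push_cast; ring
  rw [val_spec b hb h, val_spec c hc h', val_spec (b * c) (by simp [hb, hc])
    (e ▸ mul_mem h h'), div_mul_div_comm, ← map_mul, ← map_mul]
  congr 2
  exact Subtype.ext e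

theorem val_add {f g : F} (hf : f ∈ x.O) (hg : g ∈ x.O) : x.val (f + g) = x.val f + x.val g := by
  obtain ⟨b, hb, h⟩ := x.mem_O.1 hf
  obtain ⟨c, hc, h'⟩ := x.mem_O.1 hg
  have e : ((b * c : X.A {x.i}) : F) * (f + g) = (b * f) * c + b * (c * g) := by push_cast; ring
  rw [val_spec b hb h, val_spec c hc h', val_spec (b * c) (by simp [hb, hc])
    (e ▸ add_mem (mul_mem h c.2) (mul_mem b.2 h')), div_add_div _ _ hb hc, ← map_mul, ← map_mul,
    ← map_mul, ← map_add]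
  congr 2
  exact Subtype.ext e

theorem val_const (c : k) : x.val (algebraMap k F c) = c :=
  (val_φ (algebraMap k _ c)).trans (x.φ.commutes c)

variable (x) in
/-- evaluation at `x` -/
def ev : x.O →ₐ[k] k where
  toFun f := x.val f
  map_one' := by simpa using val_const (x := x) 1
  map_mul' f g := val_mul f.2 g.2
  map_zero' := by simpa using val_const (x := x) 0
  map_add' f g := val_add f.2 g.2
  commutes' := val_const

theorem ev_apply (f : x.O) : x.ev f = x.val f := rfl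
@[simp] theorem val_one : x.val 1 = 1 := map_one x.ev
@[simp] theorem val_zero : x.val 0 = 0 := map_zero x.ev
theorem val_sub {f g : F} (hf : f ∈ x.O) (hg : g ∈ x.O) : x.val (f - g) = x.val f - x.val g :=
  map_sub x.ev ⟨f, hf⟩ ⟨g, hg⟩
theorem val_smul (c : k) {f : F} (hf : f ∈ x.O) : x.val (c • f) = c * x.val f :=
  map_smul x.ev c ⟨f, hf⟩
theorem val_pow {f : F} (hf : f ∈ x.O) (m : ℕ) : x.val (f ^ m) = x.val f ^ m :=
  map_pow x.ev ⟨f, hf⟩ m
theorem val_sum {ι : Type*} (s : Finset ι) {f : ι → F} (hf : ∀ a, f a ∈ x.O) :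
    x.val (∑ a ∈ s, f a) = ∑ a ∈ s, x.val (f a) := by
  have := map_sum x.ev (fun a => ⟨f a, hf a⟩) s
  rwa [ev_apply, AddSubmonoidClass.coe_finsetSum] at this
theorem mem_of_val {f : F} (h : x.val f ≠ 0) : f ∈ x.O := by
  by_contra h'
  exact h (dif_neg h')
theorem ne_of_val {f : F} (h : x.val f ≠ 0) : f ≠ 0 := fun h' => h (h' ▸ val_zero)
theorem val_sub_const {f : F} (hf : f ∈ x.O) : x.val (f - algebraMap k F (x.val f)) = 0 := by
  rw [val_sub hf (x.O.algebraMap_mem _), val_const, sub_self]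

theorem inv_mem {f : F} (h : x.val f ≠ 0) : f⁻¹ ∈ x.O := by
  obtain ⟨b, hb, h'⟩ := x.mem_O.1 (mem_of_val h)
  refine x.mem_O.2 ⟨⟨_, h'⟩, fun h0 => h (by rw [val_spec b hb h', h0, zero_div]), ?_⟩
  rw [mul_inv_cancel_right₀ (ne_of_val h)]
  exact b.2

theorem val_inv {f : F} (h : x.val f ≠ 0) : x.val f⁻¹ = (x.val f)⁻¹ :=
  eq_inv_of_mul_eq_one_left (by
    rw [← val_mul (inv_mem h) (mem_of_val h), inv_mul_cancel₀ (ne_of_val h), val_one])

theorem val_ne_of_inv {f : F} (hf : f ∈ x.O) (h0 : f ≠ 0) (h : f⁻¹ ∈ x.O) : x.val f ≠ 0 :=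
  left_ne_zero_of_mul_eq_one (by rw [← val_mul hf h, mul_inv_cancel₀ h0, val_one])

theorem val_mul_ne {f g : F} (hf : x.val f ≠ 0) (hg : x.val g ≠ 0) : x.val (f * g) ≠ 0 := by
  rw [val_mul (mem_of_val hf) (mem_of_val hg)]
  exact mul_ne_zero hf hg

theorem val_zpow_ne {f : F} (h : x.val f ≠ 0) (e : ℤ) : x.val (f ^ e) ≠ 0 := by
  obtain ⟨m, rfl | rfl⟩ := e.eq_nat_or_neg
  · rw [zpow_natCast, val_pow (mem_of_val h)]
    exact pow_ne_zero _ h
  · rw [zpow_neg, zpow_natCast, ← inv_pow, val_pow (inv_mem h), val_inv h]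
    exact pow_ne_zero _ (inv_ne_zero h)

/-- `val` is the only character -/
theorem val_eq_of_hom {A : Subalgebra k F}
    (φ : A →ₐ[k] k) (h : ∀ f ∈ x.O, ∃ b : A, φ b ≠ 0 ∧ (b : F) * f ∈ A) (hle : A ≤ x.O) (a : A) :
    x.val a = φ a := by
  by_contra hne
  have h1 : x.val (a - algebraMap k F (φ a)) ≠ 0 := by
    rw [val_sub (hle a.2) (x.O.algebraMap_mem _), val_const]
    exact sub_ne_zero.2 hne
  obtain ⟨b, hb, hc⟩ := h _ (inv_mem h1)
  refine hb ?_
  have : b = ⟨_, hc⟩ * (a - algebraMap k A (φ a)) := Subtype.ext (by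
    simp only [MulMemClass.coe_mul, AddSubgroupClass.coe_sub, SubalgebraClass.coe_algebraMap]
    rw [inv_mul_cancel_right₀ (ne_of_val h1)])
  rw [this, map_mul, map_sub, AlgHom.commutes]
  simp

variable (x) in
/-- the maximal ideal -/
def m : Ideal x.O := RingHom.ker x.ev
theorem mem_m {a : x.O} : a ∈ x.m ↔ x.val a = 0 := Iff.rfl

theorem isUnit_iff {a : x.O} : IsUnit a ↔ x.val a ≠ 0 :=
  ⟨fun h => (h.map x.ev).ne_zero, fun h => IsUnit.of_mul_eq_one ⟨_, inv_mem h⟩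
    (Subtype.ext (mul_inv_cancel₀ (ne_of_val h)))⟩

instance : IsLocalRing x.O := IsLocalRing.of_isUnit_or_isUnit_one_sub_self fun a => by
  rw [isUnit_iff, isUnit_iff, AddSubgroupClass.coe_sub, OneMemClass.coe_one,
    val_sub (one_mem _) a.2, val_one]
  by_cases h : x.val a = 0
  · exact Or.inr (by simp [h])
  · exact Or.inl h

theorem m_eq : x.m = IsLocalRing.maximalIdeal x.O := Ideal.ext fun a => by
  rw [mem_m, IsLocalRing.mem_maximalIdeal, mem_nonunits_iff, isUnit_iff, not_not]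

variable (x) in
/-- the maximal ideal of the chart ring -/
def q : Ideal (X.A {x.i}) := RingHom.ker x.φ
instance : x.q.IsMaximal :=
  RingHom.ker_isMaximal_of_surjective x.φ fun c => ⟨algebraMap k _ c, x.φ.commutes c⟩
theorem O_eq : x.O = Sm1_9.lo (X.A {x.i}) x.q := Subalgebra.ext fun _ => x.mem_O

instance : IsNoetherianRing x.O := by
  have := noeth_A X {x.i} (sne _)
  rw [O_eq]
  exact IsLocalization.isNoetherianRing x.q.primeCompl _ this

/-! ### charts -/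

theorem In.mono {I J : Finset (Fin (n + 1))} (h : x.In J) (hI : I.Nonempty) (hIJ : I ⊆ J) :
    x.In I := (X.A_mono hI hIJ).trans h

theorem In.div_mem {J : Finset (Fin (n + 1))} (h : x.In J) {j : Fin (n + 1)} (hj : j ∈ J)
    (l : Fin (n + 1)) : X.t l / X.t j ∈ x.O := h (div_mem_A X hj l)

theorem In.val_div {I J : Finset (Fin (n + 1))} (hI : x.In I) (hJ : x.In J) {i j : Fin (n + 1)}
    (hi : i ∈ I) (hj : j ∈ J) : x.val (X.t i / X.t j) ≠ 0 :=
  val_ne_of_inv (hJ.div_mem hj i) (div_ne_zero (X.t_ne i) (X.t_ne j))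
    (by rw [inv_div]; exact hI.div_mem hi j)

theorem In.insert {I : Finset (Fin (n + 1))} (h : x.In I) {i j : Fin (n + 1)} (hi : i ∈ I)
    (hj : x.val (X.t j / X.t i) ≠ 0) : x.In (insert j I) := fun a ha => by
  obtain ⟨N, hN⟩ := X.A_loc ⟨i, hi⟩ i hi j a ha
  have := mul_mem (pow_mem (inv_mem hj) N) (h hN)
  rwa [← mul_assoc, ← mul_pow, inv_mul_cancel₀ (ne_of_val hj), one_pow, one_mul] at this

theorem in_of_val {J : Finset (Fin (n + 1))} (hJ : J.Nonempty) {i : Fin (n + 1)} (hi : x.In {i})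
    (h : ∀ j ∈ J, x.val (X.t j / X.t i) ≠ 0) : x.In J := by
  classical
  have : ∀ K : Finset (Fin (n + 1)), K ⊆ J → x.In (K ∪ {i}) := fun K => by
    induction K using Finset.induction_on with
    | empty => exact fun _ => by simpa using hi
    | insert j K _ ih =>
      intro hK
      rw [Finset.insert_union]
      exact (ih ((Finset.subset_insert j K).trans hK)).insert (by simp)
        (h j (hK (Finset.mem_insert_self j K)))
  exact (this J le_rfl).mono hJ Finset.subset_union_left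

/-! ### stalks -/

variable (x) in
/-- the stalk of a lattice -/
def loc (M : XLat X V) : Submodule x.O V where
  carrier := {v | ∃ b ∈ X.A {x.i}, x.val b ≠ 0 ∧ b • v ∈ M.M {x.i}}
  zero_mem' := ⟨1, one_mem _, by simp, by simp⟩
  add_mem' := by
    rintro v w ⟨b, hb, hb0, hv⟩ ⟨c, hc, hc0, hw⟩
    refine ⟨b * c, mul_mem hb hc, val_mul_ne hb0 hc0, ?_⟩
    rw [smul_add]
    refine add_mem ?_ ?_
    · rw [mul_comm, mul_smul]
      exact M.A_smul (sne _) _ hc _ hv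
    · rw [mul_smul]
      exact M.A_smul (sne _) _ hb _ hw
  smul_mem' := by
    rintro a v ⟨b, hb, hb0, hv⟩
    obtain ⟨c, hc, h⟩ := x.mem_O.1 a.2
    refine ⟨b * c, mul_mem hb c.2, val_mul_ne hb0 (by rwa [val_φ]), ?_⟩
    have := M.A_smul (sne _) _ h _ hv
    rwa [smul_smul, mul_right_comm, mul_comm c.1 b, mul_smul] at this

theorem smul_loc {M : XLat X V} {a : F} (ha : a ∈ x.O) {v : V} (hv : v ∈ x.loc M) :
    a • v ∈ x.loc M := (x.loc M).smul_mem ⟨a, ha⟩ hv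

theorem csmul_mem {P : Submodule x.O V} (c : k) {v : V} (hv : v ∈ P) : c • v ∈ P := by
  rw [← algebraMap_smul F]
  exact P.smul_mem ⟨_, x.O.algebraMap_mem c⟩ hv

theorem of_smul_mem {P : Submodule x.O V} {a : F} (ha : x.val a ≠ 0) {v : V} (hv : a • v ∈ P) :
    v ∈ P := by
  have : a⁻¹ • a • v ∈ P := P.smul_mem ⟨_, inv_mem ha⟩ hv
  rwa [inv_smul_smul₀ (ne_of_val ha)] at this

theorem smul_mem_iff {P : Submodule x.O V} {a : F} (ha : x.val a ≠ 0) {v : V} :
    a • v ∈ P ↔ v ∈ P := ⟨of_smul_mem ha, P.smul_mem ⟨_, mem_of_val ha⟩⟩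

/-- moving between charts that contain `x` -/
theorem exists_move (M : XLat X V) {I J : Finset (Fin (n + 1))} (hI : I.Nonempty) (hJ : J.Nonempty)
    (xI : x.In I) (xJ : x.In J) {v : V} (hv : v ∈ M.M I) :
    ∃ N : ℕ, ∀ N' ≥ N, ∃ b ∈ X.A J, x.val b ≠ 0 ∧ b • v ∈ M.M J ∧
      b = (∏ l ∈ (I ∪ J) \ J, X.t l / X.t hJ.choose) ^ N' := by
  classical
  obtain ⟨N, hN⟩ := loc_set M.toLat hJ.choose_spec (Finset.subset_union_right (s₁ := I))
    (M.mono hI Finset.subset_union_left hv)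
  refine ⟨N, fun N' h => ⟨_, pow_mem (prod_mem fun l _ => div_mem_A X hJ.choose_spec l) _, ?_,
    hN N' h, rfl⟩⟩
  rw [← zpow_natCast]
  refine val_zpow_ne (Finset.prod_induction _ (fun f => x.val f ≠ 0) (fun _ _ => val_mul_ne)
    (by simp) fun l hl => xI.val_div xJ ?_ hJ.choose_spec) _
  rw [Finset.mem_sdiff, Finset.mem_union] at hl
  tauto

theorem In.mem_loc {J : Finset (Fin (n + 1))} (h : x.In J) (hJ : J.Nonempty) {M : XLat X V} {v : V}
    (hv : v ∈ M.M J) : v ∈ x.loc M := by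
  obtain ⟨N, hN⟩ := exists_move M hJ (sne _) h x.in_i hv
  obtain ⟨b, h1, h2, h3, -⟩ := hN N le_rfl
  exact ⟨b, h1, h2, h3⟩

theorem In.exists_den {J : Finset (Fin (n + 1))} (h : x.In J) (hJ : J.Nonempty) {M : XLat X V}
    {v : V} (hv : v ∈ x.loc M) : ∃ b ∈ X.A J, x.val b ≠ 0 ∧ b • v ∈ M.M J := by
  obtain ⟨b, hb, hb0, hv⟩ := hv
  obtain ⟨N, hN⟩ := exists_move M (sne _) hJ x.in_i h hv
  obtain ⟨N', hN'⟩ := exists_move (OX X) (sne _) hJ x.in_i h hb
  obtain ⟨c, -, hc0, hc, rfl⟩ := hN (max N N') (le_max_left _ _)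
  obtain ⟨c, -, -, hc', rfl⟩ := hN' (max N N') (le_max_right _ _)
  exact ⟨_, hc', val_mul_ne hc0 hb0, by rwa [smul_eq_mul, mul_smul]⟩

theorem mem_loc_i {M : XLat X V} {v : V} (hv : v ∈ M.M {x.i}) : v ∈ x.loc M :=
  x.in_i.mem_loc (sne _) hv

theorem mem_loc_OX {f : F} : f ∈ x.loc (OX X) ↔ f ∈ x.O :=
  ⟨fun ⟨b, hb, h0, h⟩ => x.mem_O.2 ⟨⟨b, hb⟩, by rwa [← val_φ], h⟩, fun h =>
    let ⟨b, hb, h⟩ := x.mem_O.1 h
    ⟨b, b.2, by rwa [val_φ], h⟩⟩

theorem loc_mono {N M : XLat X V} (h : N.toFam.LE M.toFam) : x.loc N ≤ x.loc M :=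
  fun _ ⟨b, hb, h0, hv⟩ => ⟨b, hb, h0, h _ (sne _) hv⟩

theorem loc_congr {N M : XLat X V} (h : Eqv N.toFam M.toFam) : x.loc N = x.loc M :=
  le_antisymm (loc_mono h.le) (loc_mono h.symm.le)

theorem map_loc {M : XLat X V} {N : XLat X W} {g : V →ₗ[F] W}
    (h : M.toFam.Maps N.toFam (kl k g)) {v : V} (hv : v ∈ x.loc M) : g v ∈ x.loc N :=
  let ⟨b, hb, h0, hv⟩ := hv
  ⟨b, hb, h0, by rw [← map_smul]; exact h _ (sne _) _ hv⟩

/-- a common denominator -/
theorem In.exists_den' {J : Finset (Fin (n + 1))} (h : x.In J) (hJ : J.Nonempty) {ι : Type*}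
    [Finite ι] {M : ι → XLat X V} {v : ι → V} (hv : ∀ a, v a ∈ x.loc (M a)) :
    ∃ b ∈ X.A J, x.val b ≠ 0 ∧ ∀ a, b • v a ∈ (M a).M J := by
  classical
  have := Fintype.ofFinite ι
  choose b h1 h2 h3 using fun a => h.exists_den hJ (hv a)
  refine ⟨∏ a, b a, prod_mem fun a _ => h1 a, Finset.prod_induction _ (fun f => x.val f ≠ 0)
    (fun _ _ => val_mul_ne) (by simp) fun a _ => h2 a, fun a => ?_⟩
  rw [← Finset.prod_erase_mul _ _ (Finset.mem_univ a), mul_smul]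
  exact (M a).A_smul hJ _ (prod_mem fun a _ => h1 a) _ (h3 a)

theorem mem_loc_twX {M : XLat X V} {e : ℤ} {v : V} :
    v ∈ x.loc (twX M e) ↔ X.t x.i ^ (-e) • v ∈ x.loc M :=
  exists_congr fun b => by rw [mem_twX (Finset.mem_singleton_self _), smul_comm]

theorem Gm_mem_loc {M : XLat X V} {e : ℤ} {v : V} (hv : v ∈ Gm M.toLat e) :
    X.t x.i ^ (-e) • v ∈ x.loc M := mem_loc_i (mem_Gm.1 hv _)

theorem AA_mem_O {e : ℤ} {a : F} (ha : a ∈ AA X e) : X.t x.i ^ (-e) * a ∈ x.O :=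
  x.in_i (mem_AA.1 ha _)

theorem mem_loc_piX {ι : Type} [Finite ι] {M : ι → XLat X V} {v : ι → V} :
    v ∈ x.loc (piX M) ↔ ∀ a, v a ∈ x.loc (M a) :=
  ⟨fun ⟨b, hb, h0, hv⟩ a => ⟨b, hb, h0, mem_piFam.1 hv a⟩, fun h =>
    let ⟨b, hb, h0, hv⟩ := x.in_i.exists_den' (sne _) h
    ⟨b, hb, h0, mem_piFam.2 hv⟩⟩

theorem mem_loc_OP {ι : Type} [Finite ι] {v : ι → F} : v ∈ x.loc (OP X ι) ↔ ∀ a, v a ∈ x.O :=
  mem_loc_piX.trans (forall_congr' fun _ => mem_loc_OX)

theorem mem_loc_mapX {g : V →ₗ[F] W} {M : XLat X V} {w : W} :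
    w ∈ x.loc (mapX g M) ↔ ∃ v ∈ x.loc M, g v = w :=
  ⟨fun ⟨b, _, h0, v, hv, e⟩ => ⟨b⁻¹ • v, smul_loc (inv_mem h0) (mem_loc_i hv), by
    rw [map_smul, ← kl_apply (k := k), e, inv_smul_smul₀ (ne_of_val h0)]⟩, by
    rintro ⟨v, hv, rfl⟩
    exact map_loc (N := mapX g M) (fun _ _ x hx => Submodule.mem_map_of_mem hx) hv⟩

theorem mem_loc_preX {M : XLat X V} {g : V →ₗ[F] W} {N : XLat X W} {v : V} :
    v ∈ x.loc (preX M g N) ↔ v ∈ x.loc M ∧ g v ∈ x.loc N := by
  refine ⟨fun ⟨b, hb, h0, h⟩ => ⟨⟨b, hb, h0, h.1⟩, b, hb, h0, by rw [← map_smul]; exact h.2⟩,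
    fun ⟨⟨b, hb, h0, h⟩, c, hc, h0', h'⟩ => ⟨b * c, mul_mem hb hc, val_mul_ne h0 h0',
      mem_preX.2 ⟨?_, ?_⟩⟩⟩
  · rw [mul_comm, mul_smul]
    exact M.A_smul (sne _) _ hc _ h
  · rw [map_smul, mul_smul]
    exact N.A_smul (sne _) _ hb _ h'


theorem mem_loc_comapX {M : XLat X W} {g : V →ₗ[F] W} {hg : Function.Injective g} {v : V} :
    v ∈ x.loc (comapX M g hg) ↔ g v ∈ x.loc M := exists_congr fun b => by
  rw [← map_smul]
  rfl

theorem mem_loc_bot {v : V} : v ∈ x.loc (bot X V) ↔ v = 0 :=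
  ⟨fun ⟨_, _, h0, h⟩ => (smul_eq_zero.1 h).resolve_left (ne_of_val h0), fun h => h ▸ zero_mem _⟩

theorem loc_supX (M N : XLat X V) : x.loc (supX M N) = x.loc M ⊔ x.loc N := by
  refine le_antisymm (fun v ⟨b, _, h0, h⟩ => of_smul_mem h0 ?_)
    (sup_le (loc_mono (le_supL_left _ _)) (loc_mono (le_supL_right _ _)))
  obtain ⟨y, hy, z, hz, e⟩ := mem_supL.1 h
  exact e ▸ Submodule.add_mem_sup (mem_loc_i hy) (mem_loc_i hz)

theorem mem_loc_genX {ι : Type} [Fintype ι] {g : ι → V} {e : ℤ} {v : V} :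
    v ∈ x.loc (genX X g e) ↔
      ∃ c : ι → F, (∀ a, c a ∈ x.O) ∧ ∑ a, c a • X.t x.i ^ (-e) • g a = v := by
  refine ⟨fun ⟨b, _, h0, h⟩ => ?_, ?_⟩
  · obtain ⟨c, hc, e1⟩ := (mem_genX (Finset.mem_singleton_self _)).1 h
    refine ⟨b⁻¹ • c, fun a => mul_mem (inv_mem h0) (x.in_i (hc a)), ?_⟩
    simp only [Pi.smul_apply, smul_eq_mul, mul_smul]
    rw [← Finset.smul_sum, e1, inv_smul_smul₀ (ne_of_val h0)]
  · rintro ⟨c, hc, rfl⟩
    classical
    refine Submodule.sum_mem _ fun a _ => smul_loc (hc a) (mem_loc_i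
      ((mem_genX (Finset.mem_singleton_self _)).2 ⟨Pi.single a 1, fun b => ?_, ?_⟩))
    · rw [Pi.single_apply]
      split_ifs
      exacts [one_mem _, zero_mem _]
    · simp [Pi.single_apply]

theorem exists_span (M : XLat X V) : ∃ (r : ℕ) (g : Fin r → V), (∀ a, g a ∈ M.M {x.i}) ∧
    (∀ v ∈ M.M {x.i}, ∃ c : Fin r → F, (∀ a, c a ∈ X.A {x.i}) ∧ ∑ a, c a • g a = v) ∧
    ∀ v ∈ x.loc M, ∃ c : Fin r → F, (∀ a, c a ∈ x.O) ∧ ∑ a, c a • g a = v :=
  let ⟨_, r, _, hg, hle⟩ := exists_gens M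
  ⟨r, _, fun a => mem_Gm.1 (hg a) _, fun _ hv => (mem_genX (Finset.mem_singleton_self _)).1
    (hle _ (sne _) hv), fun _ hv => mem_loc_genX.1 (loc_mono hle hv)⟩

theorem fg_loc (M : XLat X V) : (x.loc M).FG := by
  obtain ⟨r, g, hg, -, h⟩ := exists_span (x := x) M
  refine Submodule.fg_def.2 ⟨_, Set.finite_range g, le_antisymm (Submodule.span_le.2
    (Set.range_subset_iff.2 fun a => mem_loc_i (hg a))) fun v hv => ?_⟩
  obtain ⟨c, hc, rfl⟩ := h v hv
  exact Submodule.sum_mem _ fun a _ =>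
    Submodule.smul_mem _ (⟨c a, hc a⟩ : x.O) (Submodule.subset_span ⟨a, rfl⟩)

theorem mem_loc_homX {M : XLat X V} {hM : XFull M} {N : XLat X W} {φ : V →ₗ[F] W} :
    φ ∈ x.loc (homX M hM N) ↔ ∀ v ∈ x.loc M, φ v ∈ x.loc N := by
  refine ⟨fun ⟨b, _, h0, h⟩ v ⟨c, _, hc0, hv⟩ => of_smul_mem (val_mul_ne h0 hc0) ?_, fun h => ?_⟩
  · have := (mem_homX (sne _)).1 h _ hv
    rw [LinearMap.smul_apply, map_smul, smul_smul] at this
    exact mem_loc_i this
  · obtain ⟨r, g, hg, h1, -⟩ := exists_span (x := x) M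
    obtain ⟨b, hb, h0, h2⟩ := x.in_i.exists_den' (sne _) fun a => h _ (mem_loc_i (hg a))
    refine ⟨b, hb, h0, (mem_homX (sne _)).2 fun v hv => ?_⟩
    obtain ⟨c, hc, rfl⟩ := h1 v hv
    simp only [map_sum, map_smul, LinearMap.smul_apply]
    exact Submodule.sum_mem _ fun a _ => N.A_smul (sne _) _ (hc a) _ (h2 a)

/-- **Nakayama** -/
theorem nak {M P : Submodule x.O V} (hM : M.FG) (h : M ≤ P ⊔ x.m • M) : M ≤ P :=
  Submodule.le_of_le_smul_of_le_jacobson_bot (I := x.m) hM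
    (by rw [m_eq, IsLocalRing.jacobson_eq_maximalIdeal ⊥ bot_ne_top]) h

/-! ### points of a chart -/

/-- the point given by a character of a chart ring -/
theorem exists_of_hom {J : Finset (Fin (n + 1))} (hJ : J.Nonempty) (φ : X.A J →ₐ[k] k) :
    ∃ x : Pnt X, x.In J ∧ ∀ a : X.A J, x.val a = φ a := by
  obtain ⟨i, hi⟩ := id hJ
  have hle : X.A {i} ≤ X.A J := X.A_mono (sne i) (Finset.singleton_subset_iff.2 hi)
  let ψ : X.A {i} →ₐ[k] k := φ.comp (Subalgebra.inclusion hle)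
  have : (RingHom.ker ψ).IsPrime := RingHom.ker_isPrime ψ
  let x : Pnt X := ⟨Sm1_9.lo (X.A {i}) (RingHom.ker ψ), i, ψ, fun _ => Iff.rfl⟩
  have h1 : x.In {i} := Sm1_9.le_lo
  have h2 : ∀ a : X.A {i}, x.val a = ψ a := val_eq_of_hom ψ (fun _ h => h) h1
  have h3 : x.In J := in_of_val hJ h1 fun j hj => by
    rw [h2 ⟨_, div_mem_A X (Finset.mem_singleton_self i) j⟩]
    refine left_ne_zero_of_mul_eq_one (b := φ ⟨_, div_mem_A X hj i⟩) ?_
    rw [AlgHom.comp_apply, ← map_mul, ← map_one φ]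
    congr 1
    exact Subtype.ext (by
      change X.t j / X.t i * (X.t i / X.t j) = 1
      rw [div_mul_div_cancel₀ (X.t_ne i), div_self (X.t_ne j)])
  exact ⟨x, h3, val_eq_of_hom φ
    (fun f ⟨b, hb, h⟩ => ⟨⟨b, hle b.2⟩, hb, hle h⟩) h3⟩

/-- points of a common chart are separated by functions -/
theorem exists_sep {x y : Pnt X} (h : y ≠ x) {J : Finset (Fin (n + 1))} (hJ : J.Nonempty)
    (hx : x.In J) (hy : y.In J) : ∃ a ∈ X.A J, x.val a = 0 ∧ y.val a ≠ 0 := by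
  by_contra hc
  push Not at hc
  have h1 : ∀ a ∈ X.A J, y.val a = x.val a := fun a ha => by
    have := hc _ (sub_mem ha ((X.A J).algebraMap_mem _)) (val_sub_const (hx ha))
    rwa [val_sub (hy ha) (y.O.algebraMap_mem _), val_const, sub_eq_zero] at this
  refine h (Pnt.ext (Subalgebra.ext fun f => ?_))
  rw [← mem_loc_OX, ← mem_loc_OX]
  exact ⟨fun hf => let ⟨b, hb, h0, hf⟩ := hy.exists_den hJ hf
      of_smul_mem (h1 b hb ▸ h0) (hx.mem_loc hJ hf),
    fun hf => let ⟨b, hb, h0, hf⟩ := hx.exists_den hJ hf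
      of_smul_mem ((h1 b hb).symm ▸ h0) (hy.mem_loc hJ hf)⟩

end Pnt

theorem finiteType_A (X : Defs_781.Var k F n) {J : Finset (Fin (n + 1))} (hJ : J.Nonempty) :
    Algebra.FiniteType k (X.A J) := by
  let _ := algRA X hJ
  have := finite_RA X hJ
  have : IsScalarTower k (X.toCoord.R J) (X.A J) := IsScalarTower.of_algebraMap_eq fun _ => rfl
  have h1 : Algebra.FiniteType k (X.toCoord.R J) := by
    refine (Subalgebra.fg_iff_finiteType _).1 (Subalgebra.fg_def.2 ⟨_, ?_, rfl⟩)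
    refine (Set.finite_range fun p : Fin (n + 1) × Fin (n + 1) => X.t p.1 / X.t p.2).subset ?_
    rintro _ ⟨i, -, j, rfl⟩
    exact ⟨(j, i), rfl⟩
  exact h1.trans inferInstance

variable [IsAlgClosed k]

/-- **Nullstellensatz** -/
theorem exists_pnt {J : Finset (Fin (n + 1))} (hJ : J.Nonempty) {P : Ideal (X.A J)} (hP : P ≠ ⊤) :
    ∃ x : Pnt X, x.In J ∧ ∀ a ∈ P, x.val (a : F) = 0 := by
  obtain ⟨Q, hQ, hPQ⟩ := Ideal.exists_le_maximal P hP
  have := finiteType_A X hJ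
  let _ := Ideal.Quotient.field Q
  have : Module.Finite k (X.A J ⧸ Q) := finite_of_finite_type_of_isJacobsonRing _ _
  have : Algebra.IsIntegral k (X.A J ⧸ Q) := Algebra.IsIntegral.of_finite _ _
  let e := AlgEquiv.ofBijective (Algebra.ofId k (X.A J ⧸ Q))
    IsAlgClosed.algebraMap_bijective_of_isIntegral
  obtain ⟨x, h1, h2⟩ := Pnt.exists_of_hom hJ (e.symm.toAlgHom.comp (Ideal.Quotient.mkₐ k Q))
  refine ⟨x, h1, fun a ha => (h2 a).trans ?_⟩
  rw [AlgHom.comp_apply, Ideal.Quotient.mkₐ_eq_mk, Ideal.Quotient.eq_zero_iff_mem.2 (hPQ ha),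
    map_zero]

/-- **local-global** -/
theorem mem_of_loc {M : XLat X V} {J : Finset (Fin (n + 1))} (hJ : J.Nonempty) {v : V}
    (h : ∀ x : Pnt X, x.In J → v ∈ x.loc M) : v ∈ M.M J := by
  let P : Ideal (X.A J) :=
    { carrier := {a | (a : F) • v ∈ M.M J}
      zero_mem' := by simp
      add_mem' := fun {a b} ha hb => by
        rw [Set.mem_ofPred, AddMemClass.coe_add, add_smul]
        exact add_mem ha hb
      smul_mem' := fun b a ha => by
        rw [Set.mem_ofPred, smul_eq_mul, MulMemClass.coe_mul, mul_smul]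
        exact M.A_smul hJ b b.2 _ ha }
  by_cases hP : P = ⊤
  · simpa [P] using (Ideal.eq_top_iff_one P).1 hP
  · obtain ⟨x, h1, h2⟩ := exists_pnt hJ hP
    obtain ⟨b, hb, h0, h3⟩ := h1.exists_den hJ (h x h1)
    exact absurd (h2 ⟨b, hb⟩ h3) h0

theorem maps_of_loc {M : XLat X V} {N : XLat X W} {g : V →ₗ[F] W}
    (h : ∀ x : Pnt X, ∀ v ∈ x.loc M, g v ∈ x.loc N) : M.toFam.Maps N.toFam (kl k g) :=
  fun _ hI _ hv => mem_of_loc hI fun x hx => h x _ (hx.mem_loc hI hv)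

theorem le_of_loc {M N : XLat X V} (h : ∀ x : Pnt X, x.loc M ≤ x.loc N) : M.toFam.LE N.toFam :=
  maps_of_loc (g := LinearMap.id) h


theorem surj_of_loc {M : XLat X V} {N : XLat X W} {g : V →ₗ[F] W}
    (h : ∀ x : Pnt X, ∀ w ∈ x.loc N, ∃ v ∈ x.loc M, g v = w) {J : Finset (Fin (n + 1))}
    (hJ : J.Nonempty) : ∀ w ∈ N.M J, ∃ v ∈ M.M J, g v = w := fun _ hw =>
  le_of_loc (N := mapX g M) (fun x _ hw => Pnt.mem_loc_mapX.2 (h x _ hw)) J hJ hw

theorem mem_Gm_of_loc {M : XLat X V} {e : ℤ} {v : V}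
    (h : ∀ x : Pnt X, X.t x.i ^ (-e) • v ∈ x.loc M) : v ∈ Gm M.toLat e :=
  mem_Gm.2 fun i => (mem_twX (Finset.mem_singleton_self i)).1
    (mem_of_loc (sne i) fun x _ => Pnt.mem_loc_twX.2 (h x))

end Crest.Agent.N265.Fib
end
end

-- ▼ part N265/Fib/P2

/-!
# Row 265, fibrewise theory (helper2): elementary modifications

* `Elem x N M` : `m_x M ≤ N ≤ M`; `Elem.fc`, `Elem.len_eq`;
* `One x N M` : colength one at `x`; `One.len`, `FC.exists_top`, `FC.exists_bot`, `FC.one`;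
* `modX M x P hP`, `mX x M = m_x M`, `van x e = Γ(m_x(e))`, `exists_up`;
* `FreeAt x M b`, `len_mX`, `One.len_homX`, `FC.len_homX`, exactness of `Hom(B, -)`.
-/

set_option autoImplicit false
set_option linter.unusedSectionVars false
noncomputable section

namespace Crest.Agent.N265.Fib

open Crest.Agent.R274
open Cx_781 Defs_781 Ses_781 Lat_781 Ser_781 SnapA_99 SnapB_99 SnapC_99 SnapD_99 SnapE_99 Gen7_750
open Xs1_781 Filter SkDefs_474 Module Pnt

universe u

variable {k : Type u} [Field k] {F : Type u} [Field F] [Algebra k F] {n : ℕ}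
  {X : Defs_781.Var k F n}
  {U : Type u} [AddCommGroup U] [Module k U] [Module F U] [IsScalarTower k F U]
  {V : Type u} [AddCommGroup V] [Module k V] [Module F V] [IsScalarTower k F V]
  {W : Type u} [AddCommGroup W] [Module k W] [Module F W] [IsScalarTower k F W]

instance (x : Pnt X) : IsScalarTower k x.O V := IsScalarTower.of_algebraMap_smul fun c v =>
  algebraMap_smul F c v

theorem dimLT_one {R : Type*} [CommRing R] {J : Ideal R}
    (h : ∀ P Q : Ideal R, P.IsPrime → Q.IsPrime → J ≤ P → ¬ P < Q) : DimLT J 1 := fun l hl => by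
  by_contra hc
  exact h _ _ l.head.2 (l ⟨1, by omega⟩).2 hl (l.strictMono (show (0 : Fin _) < ⟨1, by omega⟩ from
    Nat.one_pos))

theorem Pnt.mem_m_smul {x : Pnt X} {P : Submodule x.O V} {a : F} (ha : a ∈ x.O) (h0 : x.val a = 0)
    {v : V} (hv : v ∈ P) : a • v ∈ x.m • P :=
  Submodule.smul_mem_smul (r := (⟨a, ha⟩ : x.O)) h0 hv

theorem Pnt.m_smul_le {x : Pnt X} {P Q : Submodule x.O V}
    (h : ∀ a ∈ x.O, x.val a = 0 → ∀ v ∈ P, a • v ∈ Q) : x.m • P ≤ Q :=
  Submodule.smul_le.2 fun a ha v hv => h a a.2 ha v hv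

/-- modulo `m_x` functions are constants -/
theorem Pnt.smul_sub_mem {x : Pnt X} {P : Submodule x.O V} {a : F} (ha : a ∈ x.O) {v : V}
    (hv : v ∈ P) : a • v - x.val a • v ∈ x.m • P := by
  rw [← algebraMap_smul F (x.val a), ← sub_smul]
  exact mem_m_smul (sub_mem ha (x.O.algebraMap_mem _)) (val_sub_const ha) hv

/-- `m_x M ≤ N ≤ M` -/
structure Elem (x : Pnt X) (N M : XLat X V) : Prop where
  le : N.toFam.LE M.toFam
  off : ∀ y : Pnt X, y ≠ x → y.loc M ≤ y.loc N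
  m : x.m • x.loc M ≤ x.loc N

/-- `N ≤ M` of colength one at `x` -/
structure One (x : Pnt X) (N M : XLat X V) : Prop extends Elem x N M where
  ex : ∃ v ∈ x.loc M, v ∉ x.loc N ∧ ∀ w ∈ x.loc M, ∃ c : k, w - c • v ∈ x.loc N

/-! ### constructions -/

/-- the sublattice with stalk `M_x ∩ P` at `x` -/
def modX (M : XLat X V) (x : Pnt X) (P : Submodule x.O V) (hP : x.m • x.loc M ≤ P) : XLat X V :=
  subLat M (fun J => M.M J ⊓ ⨅ _ : x.In J, P.restrictScalars k) (fun _ => inf_le_left)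
    (fun hI hIJ _ hv => ⟨M.mono hI hIJ hv.1, (Submodule.mem_iInf _).2 fun h =>
      (Submodule.mem_iInf _).1 hv.2 (h.mono hI hIJ)⟩)
    (fun hI a ha v hv => ⟨M.A_smul hI a ha v hv.1, (Submodule.mem_iInf _).2 fun h =>
      P.smul_mem ⟨a, h ha⟩ ((Submodule.mem_iInf _).1 hv.2 h)⟩)
    fun {I} hI i hi j v hv => by
      obtain ⟨N, hN⟩ := M.loc hI i hi j v hv.1
      refine ⟨1 + N, pow_smul_mem M hI hi j hN 1, (Submodule.mem_iInf _).2 fun h => ?_⟩
      by_cases h0 : x.val (X.t j / X.t i) = 0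
      · rw [pow_add, mul_smul, pow_one]
        exact hP (mem_m_smul (h.div_mem hi j) h0 (h.mem_loc hI hN))
      · exact P.smul_mem ⟨_, pow_mem (h.div_mem hi j) _⟩
          ((Submodule.mem_iInf _).1 hv.2 (h.insert hi h0))

section Mod
variable {M N : XLat X V} {x : Pnt X} {P : Submodule x.O V} {hP : x.m • x.loc M ≤ P}

theorem mem_modX {J : Finset (Fin (n + 1))} {v : V} :
    v ∈ (modX M x P hP).M J ↔ v ∈ M.M J ∧ (x.In J → v ∈ P) :=
  and_congr_right fun _ => Submodule.mem_iInf _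

theorem modX_le : (modX M x P hP).toFam.LE M.toFam := fun _ _ _ h => h.1

theorem loc_modX : x.loc (modX M x P hP) = x.loc M ⊓ P :=
  le_antisymm (fun _ ⟨b, hb, h0, h⟩ => ⟨⟨b, hb, h0, h.1⟩, of_smul_mem h0
    ((mem_modX.1 h).2 x.in_i)⟩) fun _ ⟨⟨b, hb, h0, h⟩, h'⟩ =>
      ⟨b, hb, h0, mem_modX.2 ⟨h, fun _ => P.smul_mem ⟨b, x.in_i hb⟩ h'⟩⟩

theorem loc_modX_ne {y : Pnt X} (hy : y ≠ x) : y.loc (modX M x P hP) = y.loc M := by
  refine le_antisymm (loc_mono modX_le) fun v ⟨b, hb, h0, h⟩ => ?_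
  by_cases hx : x.In {y.i}
  · obtain ⟨a, ha, h1, h2⟩ := exists_sep hy (sne _) hx y.in_i
    refine ⟨a * b, mul_mem ha hb, val_mul_ne h2 h0, ?_⟩
    rw [mul_smul]
    exact mem_modX.2 ⟨M.A_smul (sne _) _ ha _ h, fun _ =>
      hP (mem_m_smul (hx ha) h1 (hx.mem_loc (sne _) h))⟩
  · exact ⟨b, hb, h0, mem_modX.2 ⟨h, fun h => absurd h hx⟩⟩

theorem elem_modX : Elem x (modX M x P hP) M :=
  ⟨modX_le, fun _ hy => (loc_modX_ne hy).ge, by
    rw [loc_modX]; exact le_inf Submodule.smul_le_right hP⟩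

theorem le_modX (h : N.toFam.LE M.toFam) (h' : x.loc N ≤ P) : N.toFam.LE (modX M x P hP).toFam :=
  fun I hI _ hv => mem_modX.2 ⟨h I hI hv, fun hx => h' (hx.mem_loc hI hv)⟩

theorem mem_Gm_modX {e : ℤ} {v : V} :
    v ∈ Gm (modX M x P hP).toLat e ↔ v ∈ Gm M.toLat e ∧ X.t x.i ^ (-e) • v ∈ P := by
  refine ⟨fun h => ⟨Gm_mono modX_le e h, (mem_modX.1 (mem_Gm.1 h _)).2 x.in_i⟩, fun ⟨h, h'⟩ =>
    mem_Gm.2 fun j => mem_modX.2 ⟨mem_Gm.1 h j, fun hj => ?_⟩⟩
  refine of_smul_mem (val_zpow_ne (hj.val_div x.in_i (Finset.mem_singleton_self _)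
    (Finset.mem_singleton_self _)) e) ?_
  rwa [smul_smul, div_zpow, div_mul_eq_mul_div, ← zpow_add₀ (X.t_ne j), add_neg_cancel, zpow_zero,
    one_div, ← zpow_neg]

end Mod

/-- `m_x M` -/
def mX (x : Pnt X) (M : XLat X V) : XLat X V := modX M x (x.m • x.loc M) le_rfl

theorem loc_mX (x : Pnt X) (M : XLat X V) : x.loc (mX x M) = x.m • x.loc M :=
  loc_modX.trans (inf_eq_right.2 Submodule.smul_le_right)
theorem loc_mX_ne {x y : Pnt X} (h : y ≠ x) (M : XLat X V) : y.loc (mX x M) = y.loc M :=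
  loc_modX_ne h
theorem elem_mX (x : Pnt X) (M : XLat X V) : Elem x (mX x M) M := elem_modX
theorem mem_Gm_mX {x : Pnt X} {M : XLat X V} {e : ℤ} {v : V} : v ∈ Gm (mX x M).toLat e ↔
    v ∈ Gm M.toLat e ∧ X.t x.i ^ (-e) • v ∈ x.m • x.loc M := mem_Gm_modX

theorem mem_m_smul_OX {x : Pnt X} {f : F} : f ∈ x.m • x.loc (OX X) ↔ f ∈ x.O ∧ x.val f = 0 := by
  constructor
  · intro h
    refine Submodule.smul_induction_on (p := fun f => f ∈ x.O ∧ x.val f = 0) h
      (fun a ha g hg => ?_) fun a b ha hb =>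
        ⟨add_mem ha.1 hb.1, by rw [val_add ha.1 hb.1, ha.2, hb.2, add_zero]⟩
    rw [mem_loc_OX] at hg
    exact ⟨mul_mem a.2 hg, (val_mul a.2 hg).trans (by rw [mem_m.1 ha, zero_mul])⟩
  · intro h
    simpa using mem_m_smul h.1 h.2 (mem_loc_OX.2 (one_mem _))

/-- forms of degree `e` that vanish at `x` -/
def van (x : Pnt X) (e : ℤ) : Submodule k F := Gm (mX x (OX X)).toLat e

theorem mem_van {x : Pnt X} {e : ℤ} {a : F} :
    a ∈ van x e ↔ a ∈ AA X e ∧ x.val (X.t x.i ^ (-e) * a) = 0 :=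
  mem_Gm_mX.trans (and_congr_right fun h => mem_m_smul_OX.trans (and_iff_right (AA_mem_O h)))

theorem van_le (x : Pnt X) (e : ℤ) : van x e ≤ AA X e := fun _ h => (mem_van.1 h).1

theorem van_smul_mem {x : Pnt X} {M : XLat X V} {e f : ℤ} {a : F} (ha : a ∈ van x e) {v : V}
    (hv : v ∈ Gm M.toLat f) : a • v ∈ Gm (mX x M).toLat (e + f) := by
  refine mem_Gm_mX.2 ⟨AA_smul_mem (van_le x e ha) hv, ?_⟩
  have := mem_m_smul (AA_mem_O (van_le x e ha)) (mem_van.1 ha).2 (Gm_mem_loc (x := x) hv)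
  rwa [smul_smul, mul_right_comm, ← zpow_add₀ (X.t_ne _), ← neg_add, mul_smul] at this

theorem van_smul_le (x : Pnt X) (M : XLat X V) (e f : ℤ) :
    van x e • Gm M.toLat f ≤ Gm (mX x M).toLat (e + f) :=
  Submodule.smul_le.2 fun _ ha _ hv => van_smul_mem ha hv

/-- `M` is free at `x` with basis `b` -/
def FreeAt (x : Pnt X) (M : XLat X V) {ι : Type} (b : Basis ι F V) : Prop :=
  ∀ v, v ∈ x.loc M ↔ ∀ a, b.repr v a ∈ x.O

/-- locally free -/
def LocF (M : XLat X V) : Prop := ∀ x : Pnt X, ∃ b : Basis (Fin (finrank F V)) F V, FreeAt x M b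

theorem FreeAt.basis_mem {x : Pnt X} {M : XLat X V} {ι : Type} {b : Basis ι F V} (h : FreeAt x M b)
    (a : ι) : b a ∈ x.loc M := (h _).2 fun c => by
  classical
  rw [b.repr_self, Finsupp.single_apply]
  split_ifs
  exacts [one_mem _, zero_mem _]

theorem FreeAt.mem_m {x : Pnt X} {M : XLat X V} {ι : Type} [Finite ι] {b : Basis ι F V}
    (h : FreeAt x M b) {v : V} :
    v ∈ x.m • x.loc M ↔ ∀ a, b.repr v a ∈ x.O ∧ x.val (b.repr v a) = 0 := by
  have := Fintype.ofFinite ι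
  constructor
  · intro hv a
    refine Submodule.smul_induction_on (p := fun v => b.repr v a ∈ x.O ∧ x.val (b.repr v a) = 0) hv
      (fun c hc w hw => ?_) fun v w hv hw => ?_
    · have h1 := (h w).1 hw a
      rw [Subalgebra.smul_def, map_smul, Finsupp.smul_apply, smul_eq_mul]
      exact ⟨mul_mem c.2 h1, by rw [val_mul c.2 h1, Pnt.mem_m.1 hc, zero_mul]⟩
    · rw [map_add, Finsupp.add_apply]
      exact ⟨add_mem hv.1 hw.1, by rw [val_add hv.1 hw.1, hv.2, hw.2, add_zero]⟩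
  · intro hv
    rw [← b.sum_repr v]
    exact Submodule.sum_mem _ fun a _ => mem_m_smul (hv a).1 (hv a).2 (h.basis_mem a)

theorem FreeAt.mem_homX {x : Pnt X} {M : XLat X V} {ι : Type} [Finite ι] {b : Basis ι F V}
    (h : FreeAt x M b) {hM : XFull M} {N : XLat X W} {φ : V →ₗ[F] W} :
    φ ∈ x.loc (homX M hM N) ↔ ∀ a, φ (b a) ∈ x.loc N := by
  have := Fintype.ofFinite ι
  refine mem_loc_homX.trans ⟨fun H a => H _ (h.basis_mem a), fun H v hv => ?_⟩
  rw [← b.sum_repr v, map_sum]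
  exact Submodule.sum_mem _ fun a _ => by rw [map_smul]; exact smul_loc ((h v).1 hv a) (H a)

theorem xfull_of_single {M : XLat X V} {i : Fin (n + 1)}
    (h : Submodule.span F (M.M {i} : Set V) = ⊤) : XFull M := fun I hI => by
  classical
  refine eq_top_iff.2 (h.ge.trans (Submodule.span_le.2 fun v hv => ?_))
  obtain ⟨N, hN⟩ := loc_set M.toLat hI.choose_spec (Finset.subset_union_right (s₁ := {i}))
    (M.mono (sne i) Finset.subset_union_left hv)
  exact (Submodule.smul_mem_iff _ (pow_ne_zero _ (Finset.prod_ne_zero_iff.2 fun j _ =>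
    div_ne_zero (X.t_ne _) (X.t_ne _)))).1 (Submodule.subset_span (hN N le_rfl))

theorem xfull_of_loc {x : Pnt X} {M : XLat X V} (h : Submodule.span F (x.loc M : Set V) = ⊤) :
    XFull M := xfull_of_single (i := x.i) (eq_top_iff.2 (h.ge.trans (Submodule.span_le.2
      fun _ ⟨_, _, h0, hv⟩ => (Submodule.smul_mem_iff _ (ne_of_val h0)).1
        (Submodule.subset_span hv))))

theorem FreeAt.xfull {x : Pnt X} {M : XLat X V} {ι : Type} {b : Basis ι F V} (h : FreeAt x M b) :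
    XFull M := xfull_of_loc (x := x) (eq_top_iff.2 (b.span_eq.ge.trans (Submodule.span_mono
      (Set.range_subset_iff.2 h.basis_mem))))

theorem XFull.span_loc {M : XLat X V} (h : XFull M) (x : Pnt X) :
    Submodule.span F (x.loc M : Set V) = ⊤ :=
  eq_top_iff.2 ((h _ (sne x.i)).ge.trans (Submodule.span_mono fun _ hv => mem_loc_i hv))

theorem div_ne_const {i j : Fin (n + 1)} (hj : j ≠ i) (c : k) :
    X.t j / X.t i - algebraMap k F c ≠ 0 := fun h => by
  classical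
  have h3 : ∏ l, X.t l ^ (Pi.single j 1 - Pi.single i 1 : Fin (n + 1) → ℤ) l
      = X.t j / X.t i := by
    simp only [Pi.sub_apply, zpow_sub₀ (X.t_ne _), Finset.prod_div_distrib, Pi.single_apply]
    simp [apply_ite]
  have h4 := (X.indep.comp ![⟨Pi.single j 1 - Pi.single i 1, by simp [Finset.sum_sub_distrib]⟩,
    ⟨0, by simp⟩] (by
      intro a b hab
      have : (Pi.single j 1 - Pi.single i 1 : Fin (n + 1) → ℤ) ≠ 0 := fun h => by
        simpa [hj] using congrFun h j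
      fin_cases a <;> fin_cases b <;> simp_all))
  have h5 := (Fintype.linearIndependent_iff.1 h4) ![1, -c] (by
    simp only [Fin.sum_univ_two, Function.comp_apply, Matrix.cons_val_zero, Matrix.cons_val_one, h3]
    simpa [Algebra.algebraMap_eq_smul_one, sub_eq_add_neg] using h) 0
  simp at h5

theorem Pnt.exists_m_ne (hn : 0 < n) (x : Pnt X) : ∃ a ∈ x.O, x.val a = 0 ∧ a ≠ 0 := by
  have : Nontrivial (Fin (n + 1)) := Fin.nontrivial_iff_two_le.2 (by omega)
  obtain ⟨j, hj⟩ := exists_ne x.i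
  have h1 := x.in_i.div_mem (Finset.mem_singleton_self _) j
  exact ⟨_, sub_mem h1 (x.O.algebraMap_mem _), val_sub_const h1, div_ne_const hj _⟩

theorem xfull_mX (hn : 0 < n) (x : Pnt X) {M : XLat X V} (h : XFull M) : XFull (mX x M) := by
  obtain ⟨a, h1, h2, h3⟩ := x.exists_m_ne hn
  refine xfull_of_loc (x := x) (eq_top_iff.2 ((XFull.span_loc h x).ge.trans
    (Submodule.span_le.2 fun v hv => (Submodule.smul_mem_iff _ h3).1 (Submodule.subset_span ?_))))
  rw [loc_mX]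
  exact mem_m_smul h1 h2 hv

variable [IsAlgClosed k]

namespace Elem
variable {x : Pnt X} {N M : XLat X V}

theorem fc (h : Elem x N M) : FC N M := by
  refine ⟨h.le, fun i => ?_⟩
  have H : ∀ a : X.A {i}, (x.In {i} → x.val a = 0) → a ∈ ann N M i := fun a ha v hv =>
    mem_of_loc (sne i) fun y hy => by
      by_cases e : y = x
      · subst e
        exact h.m (mem_m_smul (hy a.2) (ha hy) (hy.mem_loc (sne i) hv))
      · exact h.off y e (smul_loc (hy a.2) (hy.mem_loc (sne i) hv))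
  by_cases hx : x.In {i}
  · let ψ : X.A {i} →ₐ[k] k := x.ev.comp (Subalgebra.inclusion hx)
    have hm := RingHom.ker_isMaximal_of_surjective ψ fun c => ⟨algebraMap k _ c, ψ.commutes c⟩
    refine dimLT_one fun P Q _ hQ h1 h2 => hQ.ne_top (hm.1.2 _ (lt_of_le_of_lt ?_ h2))
    exact le_trans (fun a ha => H a fun _ => ha) h1
  · exact (dimLT_top 1).mono (fun a _ => H a fun h => absurd h hx) le_rfl

theorem mem_Gm (h : Elem x N M) {e : ℤ} {v : V} :
    v ∈ Gm N.toLat e ↔ v ∈ Gm M.toLat e ∧ X.t x.i ^ (-e) • v ∈ x.loc N :=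
  ⟨fun hv => ⟨Gm_mono h.le e hv, Gm_mem_loc hv⟩, fun hv => mem_Gm_of_loc fun y => by
    by_cases e : y = x
    · exact e ▸ hv.2
    · exact h.off y e (Gm_mem_loc hv.1)⟩

theorem mX_le (h : Elem x N M) : (mX x M).toFam.LE N.toFam := le_of_loc fun y => by
  by_cases e : y = x
  · subst e
    exact (loc_mX y M).le.trans h.m
  · exact (loc_mX_ne e M).le.trans (h.off y e)

/-- sections of large degree fill `M_x / N_x` -/
theorem ev_surj (h : Elem x N M) : ∀ᶠ e in atTop, ∀ v ∈ x.loc M, ∃ g ∈ Gm M.toLat e,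
    v - X.t x.i ^ (-e) • g ∈ x.loc N := by
  obtain ⟨e, r, g, hg, hle⟩ := exists_gens M
  refine (eventually_ge_atTop e).mono fun e' he v hv => ?_
  obtain ⟨j, rfl⟩ : ∃ j : ℕ, e' = j + e := ⟨(e' - e).toNat, by omega⟩
  obtain ⟨c, hc, rfl⟩ := mem_loc_genX.1 (loc_mono hle hv)
  refine ⟨∑ a, x.val (c a) • X.t x.i ^ j • g a, Submodule.sum_mem _ fun a _ =>
    Submodule.smul_mem _ _ (AA_smul_mem (T1_pow_le_AA j
      (Submodule.pow_mem_pow _ (t_mem_T1 x.i) j)) (hg a)), ?_⟩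
  rw [Finset.smul_sum, ← Finset.sum_sub_distrib]
  refine Submodule.sum_mem _ fun a _ => ?_
  rw [smul_comm (_ ^ (-(j + e))), smul_smul _ (_ ^ j), ← zpow_natCast, ← zpow_add₀ (X.t_ne _),
    show -(j + e) + j = -e by ring]
  exact h.m (smul_sub_mem (hc a) (Gm_mem_loc (hg a)))

/-- **the colength is the codimension of the stalks** -/
theorem len_eq (h : Elem x N M) {E : Type*} [AddCommGroup E] [Module k E]
    (lam : x.loc M →ₗ[k] E) (hs : Function.Surjective lam)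
    (hk : ∀ v, lam v = 0 ↔ v.1 ∈ x.loc N) : len N M = finrank k E := by
  obtain ⟨e, h1, h2⟩ := (h.fc.ev_finrank.and h.ev_surj).exists
  let ρ : Gm M.toLat e →ₗ[k] x.loc M :=
    { toFun := fun g => ⟨_, Gm_mem_loc g.2⟩
      map_add' := fun _ _ => Subtype.ext (smul_add _ _ _)
      map_smul' := fun _ _ => Subtype.ext (smul_comm _ _ _) }
  have h3 := (lam ∘ₗ ρ).finrank_range_add_finrank_ker
  have h4 : LinearMap.range (lam ∘ₗ ρ) = ⊤ := LinearMap.range_eq_top.2 fun z => by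
    obtain ⟨v, rfl⟩ := hs z
    obtain ⟨g, hg, h5⟩ := h2 v v.2
    exact ⟨⟨g, hg⟩, (sub_eq_zero.1 ((map_sub lam _ _).symm.trans ((hk _).2 h5))).symm⟩
  have h5 : LinearMap.ker (lam ∘ₗ ρ) = (Gm N.toLat e).comap (Gm M.toLat e).subtype :=
    Submodule.ext fun g => (hk _).trans (h.mem_Gm.trans (and_iff_right g.2)).symm
  rw [h4, h5, finrank_top, (Submodule.comapSubtypeEquivOfLe (Gm_mono h.le e)).finrank_eq] at h3
  omega

theorem congr {N' M' : XLat X V} (h : Elem x N M) (e : Eqv N.toFam N'.toFam)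
    (e' : Eqv M.toFam M'.toFam) : Elem x N' M' :=
  ⟨(e.symm.le.trans h.le).trans e'.le, fun y hy => by
    rw [← loc_congr e, ← loc_congr e']; exact h.off y hy,
    by rw [← loc_congr e, ← loc_congr e']; exact h.m⟩

end Elem

theorem len_mX {x : Pnt X} {M : XLat X V} {ι : Type} [Fintype ι] {b : Basis ι F V}
    (h : FreeAt x M b) : len (mX x M) M = Fintype.card ι := by
  let lam : x.loc M →ₗ[k] ι → k :=
    { toFun := fun v a => x.val (b.repr v a)
      map_add' := fun v w => funext fun a => by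
        simp only [Submodule.coe_add, map_add, Finsupp.add_apply, Pi.add_apply]
        exact val_add ((h _).1 v.2 a) ((h _).1 w.2 a)
      map_smul' := fun c v => funext fun a => by
        change x.val (b.repr (c • v.1) a) = _
        rw [← algebraMap_smul F c, map_smul, Finsupp.smul_apply, algebraMap_smul]
        exact val_smul c ((h _).1 v.2 a) }
  have hr : ∀ (c : ι → F) a, b.repr (b.equivFun.symm c) a = c a := fun c a =>
    congrFun (b.equivFun.apply_symm_apply c) a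
  rw [(elem_mX x M).len_eq lam (fun c => ⟨⟨b.equivFun.symm fun a => algebraMap k F (c a),
    (h _).2 fun a => (hr _ a).symm ▸ x.O.algebraMap_mem _⟩, funext fun a =>
      (congrArg x.val (hr _ a)).trans (val_const _)⟩) fun v => by
      rw [loc_mX, h.mem_m, funext_iff]
      exact forall_congr' fun a => (and_iff_right ((h _).1 v.2 a)).symm, finrank_fintype_fun_eq_card]

namespace One
variable {x : Pnt X} {N M : XLat X V}

/-- the functional that cuts out `N` -/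
theorem exists_fun (h : One x N M) : ∃ μ : x.loc M →ₗ[k] k, Function.Surjective μ ∧
    (∀ v, μ v = 0 ↔ v.1 ∈ x.loc N) ∧ ∀ (a : x.O) v, μ (a • v) = x.val a * μ v := by
  obtain ⟨v, hv, h1, h2⟩ := h.ex
  choose c hc using h2
  have hu : ∀ w hw d, w - d • v ∈ x.loc N → c w hw = d := fun w hw d hd => by
    by_contra hne
    have := csmul_mem (c w hw - d)⁻¹ (sub_mem hd (hc w hw))
    rw [sub_sub_sub_cancel_left, ← sub_smul, smul_smul, inv_mul_cancel₀ (sub_ne_zero.2 hne),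
      one_smul] at this
    exact h1 this
  refine ⟨⟨⟨fun w => c w w.2, fun w w' => hu _ _ _ ?_⟩, fun d w => hu _ _ _ ?_⟩,
    fun d => ⟨⟨_, csmul_mem d hv⟩, hu _ _ _ (by simp)⟩, fun w => ⟨fun h0 => ?_, fun h0 =>
      hu _ w.2 _ (by simpa using h0)⟩, fun a w => hu _ _ _ ?_⟩
  · convert add_mem (hc _ w.2) (hc _ w'.2) using 1
    rw [add_smul, Submodule.coe_add]
    abel
  · convert csmul_mem d (hc _ w.2) using 1
    simp [smul_sub, mul_smul]
  · have := hc _ w.2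
    rwa [show c w w.2 = 0 from h0, zero_smul, sub_zero] at this
  · convert add_mem (h.m (smul_sub_mem a.2 w.2)) (csmul_mem (x.val a) (hc _ w.2)) using 1
    simp [smul_sub, mul_smul, Subalgebra.smul_def]

theorem fc (h : One x N M) : FC N M := h.toElem.fc

theorem len (h : One x N M) : len N M = 1 := by
  obtain ⟨μ, h1, h2, -⟩ := h.exists_fun
  rw [h.len_eq μ h1 h2, finrank_self]

theorem congr {N' M' : XLat X V} (h : One x N M) (e : Eqv N.toFam N'.toFam)
    (e' : Eqv M.toFam M'.toFam) : One x N' M' :=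
  ⟨h.toElem.congr e e', by rw [← loc_congr e, ← loc_congr e']; exact h.ex⟩

theorem of_fun (h : Elem x N M) (μ : x.loc M →ₗ[k] k) (hs : μ ≠ 0)
    (hk : ∀ v, μ v = 0 ↔ v.1 ∈ x.loc N) : One x N M := by
  obtain ⟨v, hv⟩ := DFunLike.ne_iff.1 hs
  exact ⟨h, v, v.2, fun h => hv ((hk v).2 h), fun w hw => ⟨μ ⟨w, hw⟩ / μ v,
    (hk (⟨w, hw⟩ - _ • v)).1 (by rw [map_sub, map_smul, smul_eq_mul, div_mul_cancel₀ _ hv, sub_self])⟩⟩

end One

/-- a hyperplane of the fibre gives a sublattice of colength one -/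
theorem exists_one_of_fun {x : Pnt X} {M : XLat X V} (μ : x.loc M →ₗ[k] k) (h0 : μ ≠ 0)
    (hm : ∀ v : x.loc M, v.1 ∈ x.m • x.loc M → μ v = 0) :
    ∃ N, One x N M ∧ ∀ v, μ v = 0 ↔ v.1 ∈ x.loc N := by
  let P : Submodule x.O V :=
    { carrier := {v | ∃ h : v ∈ x.loc M, μ ⟨v, h⟩ = 0}
      zero_mem' := ⟨zero_mem _, map_zero μ⟩
      add_mem' := fun ⟨h, e⟩ ⟨h', e'⟩ =>
        ⟨add_mem h h', (map_add μ ⟨_, h⟩ ⟨_, h'⟩).trans (by rw [e, e', add_zero])⟩
      smul_mem' := fun a v ⟨h, e⟩ => ⟨smul_loc a.2 h, by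
        have := hm (a • ⟨v, h⟩ - x.val a • ⟨v, h⟩) (smul_sub_mem a.2 h)
        rwa [map_sub, map_smul μ (x.val a), e, smul_zero, sub_zero] at this⟩ }
  have hP : x.m • x.loc M ≤ P := fun v hv => ⟨Submodule.smul_le_right hv, hm _ hv⟩
  have hk : ∀ v, μ v = 0 ↔ v.1 ∈ x.loc (modX M x P hP) := fun v => by
    rw [loc_modX]
    exact ⟨fun h => ⟨v.2, v.2, h⟩, fun h => h.2.2⟩
  exact ⟨_, One.of_fun elem_modX μ h0 hk, hk⟩

/-- a socle vector gives an overlattice of colength one -/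
theorem exists_up (hn : 0 < n) {x : Pnt X} {N : XLat X V} {v : V} (hv : v ∉ x.loc N)
    (hm : ∀ a ∈ x.O, x.val a = 0 → a • v ∈ x.loc N) : ∃ M, One x N M ∧ v ∈ x.loc M := by
  let g : V →ₗ[F] F →ₗ[F] V := (LinearMap.lsmul F V).flip
  have hg : Function.Injective g := fun v w h => by simpa [g] using DFunLike.congr_fun h 1
  let S := comapX (homX _ (xfull_mX hn x OX_full) N) g hg
  have hS : ∀ (y : Pnt X) w, w ∈ y.loc S ↔ ∀ a ∈ y.loc (mX x (OX X)), a • w ∈ y.loc N :=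
    fun y w => mem_loc_comapX.trans mem_loc_homX
  have hx : ∀ w, w ∈ x.loc S ↔ ∀ a ∈ x.O, x.val a = 0 → a • w ∈ x.loc N := fun w => by
    simp only [hS, loc_mX, mem_m_smul_OX, and_imp]
  have hle : N.toFam.LE S.toFam := le_of_loc fun y w hw => (hS y w).2 fun a ha =>
    smul_loc (mem_loc_OX.1 (loc_mono (elem_mX x _).le ha)) hw
  have h1 : x.m • x.loc S ≤ x.loc N := m_smul_le fun a ha h0 w hw => (hx w).1 hw a ha h0
  have hP : x.m • x.loc S ≤ x.loc N ⊔ Submodule.span x.O {v} := h1.trans le_sup_left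
  have h2 : v ∈ x.loc (modX S x _ hP) := by
    rw [loc_modX]
    exact ⟨(hx v).2 hm, Submodule.mem_sup_right (Submodule.mem_span_singleton_self v)⟩
  refine ⟨_, ⟨⟨le_modX hle le_sup_left, fun y hy w hw => ?_,
    (smul_mono_right _ (loc_mono modX_le)).trans h1⟩, v, h2, hv, fun w hw => ?_⟩, h2⟩
  · simpa using (hS y w).1 (loc_mono modX_le hw) 1 (by
      rw [loc_mX_ne hy, mem_loc_OX]; exact one_mem _)
  · rw [loc_modX] at hw
    obtain ⟨y, hy, z, hz, rfl⟩ := Submodule.mem_sup.1 hw.2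
    obtain ⟨a, rfl⟩ := Submodule.mem_span_singleton.1 hz
    refine ⟨x.val a, ?_⟩
    rw [add_sub_assoc]
    exact add_mem hy (h1 (smul_sub_mem a.2 ((hx v).2 hm)))


/-! ### chains -/

theorem exists_one_top {N M : XLat X V} (h : N.toFam.LE M.toFam) (hne : ¬ M.toFam.LE N.toFam) :
    ∃ x M', One x M' M ∧ N.toFam.LE M'.toFam := by
  obtain ⟨x, hx⟩ := not_forall.1 fun H => hne (le_of_loc H)
  obtain ⟨v, hv, h1⟩ := SetLike.not_le_iff_exists.1 fun H => hx (nak (fg_loc M) H)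
  obtain ⟨f, hf, h2⟩ := Submodule.exists_dual_map_eq_bot_of_notMem
    (p := (x.loc N ⊔ x.m • x.loc M).restrictScalars k) h1 inferInstance
  have h3 : ∀ w ∈ x.loc N ⊔ x.m • x.loc M, f w = 0 := fun w hw =>
    (Submodule.mem_bot k).1 (h2 ▸ Submodule.mem_map_of_mem hw)
  obtain ⟨M', h4, h5⟩ := exists_one_of_fun (f ∘ₗ ((x.loc M).subtype.restrictScalars k))
    (fun h0 => hf (DFunLike.congr_fun h0 ⟨v, hv⟩)) fun w hw => h3 _ (Submodule.mem_sup_right hw)
  refine ⟨x, M', h4, le_of_loc fun y w hw => ?_⟩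
  by_cases e : y = x
  · subst e
    exact (h5 ⟨w, loc_mono h hw⟩).1 (h3 _ (Submodule.mem_sup_left hw))
  · exact h4.off y e (loc_mono h hw)

namespace FC
variable {N M : XLat X V}

theorem exists_top (h : FC N M) {l : ℕ} (hl : len N M = l + 1) :
    ∃ x M', One x M' M ∧ FC N M' ∧ len N M' = l := by
  obtain ⟨x, M', h1, h2⟩ := exists_one_top h.le fun H => by
    rw [len_congr h.le (eqv_of_le h.le H) (fun _ _ => rfl), len_self] at hl
    omega
  have h3 := h.left h2 h1.le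
  have h4 := h3.len_trans h1.fc
  rw [h1.len] at h4
  exact ⟨x, M', h1, h3, by omega⟩

theorem one (h : FC N M) (hl : len N M = 1) : ∃ x, One x N M :=
  let ⟨x, _, h1, h2, h3⟩ := h.exists_top (l := 0) hl
  ⟨x, h1.congr (h2.eqv_of_len h3).symm fun _ _ => rfl⟩

theorem exists_bot (h : FC N M) {l : ℕ} (hl : len N M = l + 1) :
    ∃ x N', One x N N' ∧ FC N' M ∧ len N' M = l := by
  induction l generalizing M with
  | zero =>
    obtain ⟨x, hx⟩ := h.one hl
    exact ⟨x, M, hx, refl M, len_self M⟩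
  | succ l ih =>
    obtain ⟨y, M', h1, h2, h3⟩ := h.exists_top hl
    obtain ⟨x, N', h4, h5, h6⟩ := ih h2 h3
    exact ⟨x, N', h4, h5.trans h1.fc, by rw [h5.len_trans h1.fc, h6, h1.len]⟩

end FC

/-! ### `Hom(B, -)` for locally free `B` -/

theorem One.len_homX {x : Pnt X} {N M : XLat X W} (h : One x N M) {B : XLat X V} {ι : Type}
    [Fintype ι] {b : Basis ι F V} (hb : FreeAt x B b) (hB : XFull B) :
    Fib.len (homX B hB N) (homX B hB M) = Fintype.card ι := by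
  obtain ⟨μ, h1, h2, -⟩ := h.exists_fun
  have E : Elem x (homX B hB N) (homX B hB M) := ⟨homX_mono h.le, fun y hy φ hφ =>
    mem_loc_homX.2 fun v hv => h.off y hy (mem_loc_homX.1 hφ v hv), m_smul_le fun a ha h0 φ hφ =>
      mem_loc_homX.2 fun v hv => h.m (mem_m_smul ha h0 (mem_loc_homX.1 hφ v hv))⟩
  let lam : x.loc (homX B hB M) →ₗ[k] ι → k :=
    { toFun := fun φ a => μ ⟨φ.1 (b a), hb.mem_homX.1 φ.2 a⟩
      map_add' := fun φ ψ => funext fun a => map_add μ ⟨_, _⟩ ⟨_, _⟩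
      map_smul' := fun c φ => funext fun a => map_smul μ c ⟨_, _⟩ }
  rw [E.len_eq lam (fun c => ?_) fun φ => ?_, finrank_fintype_fun_eq_card]
  · choose v hv using fun a => h1 (c a)
    exact ⟨⟨b.constr F fun a => v a, hb.mem_homX.2 fun a => by
      rw [b.constr_basis]; exact (v a).2⟩, funext fun a => (congrArg μ
        (Subtype.ext (b.constr_basis F _ a))).trans (hv a)⟩
  · rw [hb.mem_homX, funext_iff]
    exact forall_congr' fun a => h2 _

theorem FC.len_homX [FiniteDimensional F V] {N M : XLat X W} (h : FC N M) {B : XLat X V}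
    (hb : LocF B) (hB : XFull B) :
    len (Fib.homX B hB N) (Fib.homX B hB M) = finrank F V * len N M := by
  generalize hl : len N M = l
  induction l generalizing M with
  | zero =>
    have := h.eqv_of_len hl
    rw [len_congr (homX_mono h.le) (eqv_of_le (homX_mono h.le) (homX_mono this.symm.le))
      fun _ _ => rfl, len_self, mul_zero]
  | succ l ih =>
    obtain ⟨x, M', h1, h2, h3⟩ := h.exists_top hl
    obtain ⟨b, hb'⟩ := hb x
    rw [h2.homX.len_trans h1.fc.homX, ih h2 h3, h1.len_homX hb', Fintype.card_fin, mul_add_one]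

/-- `Hom(B, -)` preserves surjections -/
theorem LocF.surj_homX [FiniteDimensional F V] {B : XLat X V} (hb : LocF B) (hB : XFull B)
    {M : XLat X U} {N : XLat X W} {g : U →ₗ[F] W}
    (h : ∀ x : Pnt X, ∀ w ∈ x.loc N, ∃ v ∈ x.loc M, g v = w) (x : Pnt X) :
    ∀ ψ ∈ x.loc (homX B hB N), ∃ φ ∈ x.loc (homX B hB M), g ∘ₗ φ = ψ := fun ψ hψ => by
  obtain ⟨b, hb'⟩ := hb x
  choose v h1 h2 using fun a => h x _ (hb'.mem_homX.1 hψ a)
  exact ⟨b.constr F v, hb'.mem_homX.2 fun a => by rw [b.constr_basis]; exact h1 a,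
    b.ext fun a => by rw [LinearMap.comp_apply, b.constr_basis, h2]⟩

end Crest.Agent.N265.Fib
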