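import Crest.Agent.N265.Fib.X0
import Crest.Agent.R274.Num_413

/-!
# Row 265, fibrewise theory (helper2): pairs of finite colength, `Hom` lattices

* `FC N M` : `N ≤ M` and `M/N` has finite support; `len N M = h⁰(M/N)`;
  `FC.van`, `FC.chi`, `FC.cL`, `FC.len_tw`, `FC.len_tens`, `FC.h_le`, `FC.eqv_of_len`;
* `exact_tens`, `tens_tw`;
* `homX M hM N` : the lattice `Hom(M, N)`.
-/

set_option autoImplicit false
set_option linter.unusedSectionVars false
noncomputable section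

namespace Crest.Agent.N265.Fib

open Crest.Agent.R274
open Cx_781 Defs_781 Ses_781 Lat_781 Ser_781 SnapA_99 SnapB_99 SnapC_99 SnapD_99 SnapE_99 Gen7_750
open Xs1_781 Filter SkDefs_474
open Num_413 (NE ne_of_ses)

universe u

variable {k : Type u} [Field k] {F : Type u} [Field F] [Algebra k F] {n : ℕ}
  {X : Defs_781.Var k F n}
  {U : Type u} [AddCommGroup U] [Module k U] [Module F U] [IsScalarTower k F U]
  {V : Type u} [AddCommGroup V] [Module k V] [Module F V] [IsScalarTower k F V]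
  {W : Type u} [AddCommGroup W] [Module k W] [Module F W] [IsScalarTower k F W]

/-- elements of `M_I` come from the singleton chart -/
theorem exists_single (M : XLat X V) {I : Finset (Fin (n + 1))} {i : Fin (n + 1)} (hi : i ∈ I)
    {x : V} (hx : x ∈ M.M I) : ∃ a ∈ X.A I, ∃ y ∈ M.M {i}, x = a • y := by
  classical
  have hsub : ({i} : Finset (Fin (n + 1))) ⊆ I := Finset.singleton_subset_iff.2 hi
  obtain ⟨N, hN⟩ := loc_set M.toLat (Finset.mem_singleton_self i) hsub hx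
  have h3 : (∏ j ∈ I \ {i}, (X.t i / X.t j)) ∈ X.A I :=
    Subalgebra.prod_mem _ fun j hj => div_mem_A X (Finset.mem_sdiff.1 hj).1 i
  refine ⟨_, pow_mem h3 N, _, hN N le_rfl, ?_⟩
  rw [smul_smul, ← mul_pow, ← Finset.prod_mul_distrib, Finset.prod_eq_one fun j _ => by
    rw [div_mul_div_cancel₀ (X.t_ne j), div_self (X.t_ne i)], one_pow, one_smul]

theorem mono1 (M : XLat X V) {I : Finset (Fin (n + 1))} {i : Fin (n + 1)} (hi : i ∈ I) {x : V}
    (hx : x ∈ M.M {i}) : x ∈ M.M I := M.mono (sne i) (Finset.singleton_subset_iff.2 hi) hx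

theorem A_mono1 {I : Finset (Fin (n + 1))} {i : Fin (n + 1)} (hi : i ∈ I) {a : F}
    (ha : a ∈ X.A {i}) : a ∈ X.A I := X.A_mono (sne i) (Finset.singleton_subset_iff.2 hi) ha

/-- maps of lattices are tested on the singleton charts -/
theorem maps_of_single {M : XLat X V} {N : XLat X W} {g : V →ₗ[F] W}
    (h : ∀ i, ∀ x ∈ M.M {i}, g x ∈ N.M {i}) : M.toFam.Maps N.toFam (kl k g) := by
  rintro I ⟨i, hi⟩ x hx
  obtain ⟨a, ha, y, hy, rfl⟩ := exists_single M hi hx
  rw [kl_apply, map_smul]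
  exact N.A_smul ⟨i, hi⟩ a ha _ (mono1 N hi (h i y hy))

theorem le_of_single {M N : XLat X V} (h : ∀ i, M.M {i} ≤ N.M {i}) : M.toFam.LE N.toFam :=
  maps_of_single (g := LinearMap.id) h

theorem ann_smul {N M : XLat X V} {I : Finset (Fin (n + 1))} {i : Fin (n + 1)} (hi : i ∈ I)
    {a : X.A {i}} (ha : a ∈ ann N M i) {x : V} (hx : x ∈ M.M I) : (a : F) • x ∈ N.M I := by
  obtain ⟨c, hc, y, hy, rfl⟩ := exists_single M hi hx
  rw [smul_comm]
  exact N.A_smul ⟨i, hi⟩ c hc _ (mono1 N hi (ha y hy))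

theorem mem_twX {M : XLat X V} {e : ℤ} {I : Finset (Fin (n + 1))} {i : Fin (n + 1)} (hi : i ∈ I)
    {x : V} : x ∈ (twX M e).M I ↔ X.t i ^ (-e) • x ∈ M.M I := mem_tw_iff hi

theorem twX_mono {N M : XLat X V} (h : N.toFam.LE M.toFam) (e : ℤ) :
    (twX N e).toFam.LE (twX M e).toFam := fun I ⟨i, hi⟩ _ hx =>
  (mem_twX hi).2 (h I ⟨i, hi⟩ ((mem_twX hi).1 hx))

theorem twX_zero (M : XLat X V) : Eqv (twX M 0).toFam M.toFam := fun _ hI => tw_zero M.toLat hI

/-! ### cohomology of pairs -/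

/-- `h^p(M/N)` -/
def hq (N M : XLat X V) : ℕ → ℕ := (M.toFam.cechq N.toFam).h

/-- the colength -/
def len (N M : XLat X V) : ℕ := hq N M 0

theorem ne_pair {N M : XLat X V} (h : N.toFam.LE M.toFam) :
    NE N.toFam.cech.h M.toFam.cech.h (hq N M) :=
  ne_of_ses (pairSES h) (finH N) (finH M) (finHq h)

theorem ne_exact {M₁ : XLat X U} {M₂ : XLat X V} {M₃ : XLat X W} {f : U →ₗ[k] V} {g : V →ₗ[k] W}
    (E : Exact M₁.toFam M₂.toFam M₃.toFam f g) :
    NE M₁.toFam.cech.h M₂.toFam.cech.h M₃.toFam.cech.h :=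
  ne_of_ses E.ses (finH _) (finH _) (finH _)

theorem h_eq_zero_iff {M : XLat X V} {p : ℕ} : M.toFam.cech.h p = 0 ↔ Subsingleton (M.H p) :=
  have := finH M p
  Module.finrank_zero_iff

theorem hq_self (M : XLat X V) (p : ℕ) : hq M M p = 0 := by
  have : Subsingleton ((M.toFam.cechq M.toFam).H p) := Cx.H_subsingleton_of_X _ p
    (Submodule.Quotient.subsingleton_iff.2 (eq_top_iff.2 fun x _ => x.2))
  exact Module.finrank_zero_of_subsingleton

/-- isomorphic quotients -/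
theorem hq_iso {N M : XLat X V} {N' M' : XLat X W} (h : N.toFam.LE M.toFam)
    (h' : N'.toFam.LE M'.toFam) (L : V →ₗ[k] W) (hM : M.toFam.Maps M'.toFam L)
    (hN : N.toFam.Maps N'.toFam L)
    (hi : ∀ I : Finset (Fin (n + 1)), I.Nonempty → ∀ x ∈ M.M I, L x ∈ N'.M I → x ∈ N.M I)
    (hs : ∀ I : Finset (Fin (n + 1)), I.Nonempty → ∀ y ∈ M'.M I, ∃ x ∈ M.M I, y - L x ∈ N'.M I) :
    hq N M = hq N' M' := by
  have E : Exactq M.toFam N.toFam M'.toFam N'.toFam M'.toFam M'.toFam L LinearMap.id :=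
    ⟨hM, hN, fun _ _ _ h => h, fun I hI _ hx => h' I hI hx, hi, fun I hI x hx => hM I hI x hx,
      fun I hI y hy _ => hs I hI y hy, fun I _ z hz => ⟨0, zero_mem _, by simpa using hz⟩⟩
  have H : NE (hq N M) (hq N' M') (hq M' M') :=
    ne_of_ses E.ses (finHq h) (finHq h') (finHq Fam.LE.rfl)
  funext p
  rcases p with _ | p
  · have h1 := H.a0
    have h2 := H.b_le 0
    rw [hq_self] at h2
    omega
  · exact H.a_eq_b (hq_self _ _) (hq_self _ _)

theorem hq_congr {N M N' M' : XLat X V} (h : N.toFam.LE M.toFam) (e : Eqv N.toFam N'.toFam)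
    (e' : Eqv M.toFam M'.toFam) : hq N M = hq N' M' :=
  hq_iso h ((e.symm.le.trans h).trans e'.le) LinearMap.id e'.le e.le
    (fun I hI _ _ hx => e.symm.le I hI hx)
    fun I hI y hy => ⟨y, e'.symm.le I hI hy, by simp⟩

/-! ### finite colength -/

/-- `N ≤ M` and `M/N` has finite support -/
structure FC (N M : XLat X V) : Prop where
  le : N.toFam.LE M.toFam
  supp : SuppLT N M 1

namespace FC
variable {N M P : XLat X V}

theorem of_ann {N' M' : XLat X W} (h : FC N M) (le : N'.toFam.LE M'.toFam)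
    (ha : ∀ i, ann N M i ≤ ann N' M' i) : FC N' M' := ⟨le, fun i => (h.supp i).mono (ha i) le_rfl⟩

theorem refl (M : XLat X V) : FC M M :=
  ⟨Fam.LE.rfl, fun i => (dimLT_top 1).mono
    (fun a _ x hx => M.A_smul (sne i) a a.2 x hx) le_rfl⟩

theorem of_eqv (h : Eqv N.toFam M.toFam) : FC N M :=
  (refl M).of_ann h.le fun i _ ha x hx => h.symm.le _ (sne i) (ha x hx)

theorem left (h : FC N M) (h1 : N.toFam.LE P.toFam) (h2 : P.toFam.LE M.toFam) : FC N P :=
  h.of_ann h1 fun i _ ha x hx => ha x (h2 _ (sne i) hx)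

theorem right (h : FC N M) (h1 : N.toFam.LE P.toFam) (h2 : P.toFam.LE M.toFam) : FC P M :=
  h.of_ann h2 fun i _ ha x hx => h1 _ (sne i) (ha x hx)

theorem trans (h : FC N P) (h' : FC P M) : FC N M := by
  refine ⟨h.le.trans h'.le, fun i l hl => ?_⟩
  have h0 : ann N P i * ann P M i ≤ ann N M i := Ideal.mul_le.2 fun a ha b hb x hx => by
    rw [MulMemClass.coe_mul, mul_smul]; exact ha _ (hb x hx)
  have := h0.trans hl
  exact (l.head.isPrime.mul_le.1 this).elim (h.supp i l) (h'.supp i l)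

theorem congr {N' M' : XLat X V} (h : FC N M) (e : Eqv N.toFam N'.toFam)
    (e' : Eqv M.toFam M'.toFam) : FC N' M' := ((of_eqv e.symm).trans h).trans (of_eqv e')

theorem twX (h : FC N M) (e : ℤ) : FC (twX N e) (twX M e) :=
  h.of_ann (twX_mono h.le e) fun i _ ha x hx => by
    rw [mem_twX (Finset.mem_singleton_self i)] at hx ⊢
    rw [smul_comm]
    exact ha _ hx

theorem tens {G : Type*} [AddCommGroup G] (T : Tw X G) (h : FC N M) (D : G) :
    FC (T.tens D N) (T.tens D M) :=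
  h.of_ann (T.tens_mono D h.le) fun i _ ha x hx => by
    rw [T.mem_tens (sne i)] at hx ⊢
    intro q hq
    rw [smul_comm]
    exact ha _ (hx q hq)

theorem pi {ι : Type} [Finite ι] {N M : ι → XLat X V} (h : ∀ a, FC (N a) (M a)) :
    FC (piX N) (piX M) := by
  have := Fintype.ofFinite ι
  refine ⟨fun I hI x hx => mem_piFam.2 fun a => (h a).le I hI (mem_piFam.1 hx a),
    fun i l hl => ?_⟩
  have h0 : Finset.univ.inf (fun a => ann (N a) (M a) i) ≤ ann (piX N) (piX M) i :=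
    fun c hc x hx => mem_piFam.2 fun a =>
      Finset.inf_le (f := fun a => ann (N a) (M a) i) (Finset.mem_univ a) hc _ (mem_piFam.1 hx a)
  have h1 := h0.trans hl
  obtain ⟨a, -, ha⟩ := l.head.isPrime.inf_le'.1 h1
  exact (h a).supp i l ha

variable [Infinite k]

/-- a linear form that is invertible on `M/N` -/
theorem exists_lin (h : FC N M) : ∃ l ∈ T1 X.toCoord, ∀ i, ∃ a ∈ ann N M i, ∃ b ∈ X.A {i},
    (a : F) + b * (l / X.t i) = 1 := by
  classical
  let φ : ∀ i, T1 X.toCoord →ₗ[k] X.A {i} := fun i =>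
    { toFun := fun l => ⟨l / X.t i, X.R_le (sne i) (T1_div l.2 (Finset.mem_singleton_self i))⟩
      map_add' := fun a b => Subtype.ext (add_div _ _ _)
      map_smul' := fun c a => Subtype.ext (smul_div_assoc c _ _) }
  let Ws : Set (Submodule k (T1 X.toCoord)) :=
    ⋃ i, (fun P => (P.restrictScalars k).comap (φ i)) '' (ann N M i).minimalPrimes
  have hW : Ws.Finite := Set.finite_iUnion fun i =>
    (haveI := noeth_A X {i} (sne i); Ideal.finite_minimalPrimes_of_isNoetherianRing _ _).image _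
  have hW' : ⊤ ∉ hW.toFinset := by
    rw [Set.Finite.mem_toFinset]
    intro h
    obtain ⟨i, P, hP, hP'⟩ := Set.mem_iUnion.1 h
    have h1 : φ i ⟨X.t i, t_mem_T1 i⟩ ∈ P := (hP'.ge : _ ≤ _) Submodule.mem_top
    have h2 : φ i ⟨X.t i, t_mem_T1 i⟩ = 1 := Subtype.ext (div_self (X.t_ne i))
    exact hP.1.1.ne_top ((Ideal.eq_top_iff_one _).2 (h2 ▸ h1))
  obtain ⟨l, hl⟩ := (Set.ne_univ_iff_exists_notMem _).1
    (Subspace.biUnion_ne_univ_of_top_notMem hW')
  refine ⟨l, l.2, fun i => ?_⟩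
  have h1 : ann N M i ⊔ Ideal.span {φ i l} = ⊤ :=
    ((h.supp i).drop le_sup_left fun P hP hle => hl (Set.mem_biUnion
      (x := (P.restrictScalars k).comap (φ i))
      (hW.mem_toFinset.2 (Set.mem_iUnion.2 ⟨i, P, hP, rfl⟩))
      (hle (Ideal.mem_sup_right (Ideal.mem_span_singleton_self _))))).eq_top
  obtain ⟨a, ha, c, hc, e⟩ := Submodule.mem_sup.1 (h1.ge (Submodule.mem_top (x := 1)))
  obtain ⟨b, rfl⟩ := Ideal.mem_span_singleton'.1 hc
  exact ⟨a, ha, b, b.2, congrArg Subtype.val e⟩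

theorem hq_succ (h : FC N M) (e : ℤ) :
    hq (Fib.twX N e) (Fib.twX M e) = hq (Fib.twX N (e + 1)) (Fib.twX M (e + 1)) := by
  obtain ⟨l, hl, H⟩ := h.exists_lin
  have hm : ∀ P : XLat X V, (Fib.twX P e).toFam.Maps (Fib.twX P (e + 1)).toFam (mu k l) := by
    rintro P I ⟨i, hi⟩ x hx
    rw [mu_apply, mem_twX hi, zp_succ]
    exact P.smul_mem ⟨i, hi⟩ _ (T1_div hl hi) _ ((mem_twX hi).1 hx)
  refine hq_iso (twX_mono h.le _) (twX_mono h.le _) (mu k l) (hm M) (hm N) ?_ ?_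
  · rintro I ⟨i, hi⟩ x hx h1
    obtain ⟨a, ha, b, hb, e1⟩ := H i
    rw [mu_apply, mem_twX hi, zp_succ] at h1
    rw [mem_twX hi] at hx ⊢
    rw [← one_smul F (_ • x), ← e1, add_smul, mul_smul]
    exact add_mem (ann_smul hi ha hx) (N.A_smul ⟨i, hi⟩ _ (A_mono1 hi hb) _ h1)
  · rintro I ⟨i, hi⟩ y hy
    obtain ⟨a, ha, b, hb, e1⟩ := H i
    rw [mem_twX hi] at hy
    refine ⟨(b / X.t i) • y, ?_, ?_⟩
    · rw [mem_twX hi, div_eq_mul_inv, mul_smul, smul_comm, smul_smul (X.t i ^ (-e)),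
        ← zpow_sub_one₀ (X.t_ne i), sub_eq_add_neg, ← neg_add]
      exact M.A_smul ⟨i, hi⟩ _ (A_mono1 hi hb) _ hy
    · have : y - mu k l ((b / X.t i) • y) = (a : F) • y := by
        rw [mu_apply, smul_smul, eq_sub_of_add_eq e1, sub_smul, one_smul]
        congr 2
        ring
      rw [this, mem_twX hi, smul_comm]
      exact ann_smul hi ha hy

theorem hq_tw (h : FC N M) (e : ℤ) : hq (Fib.twX N e) (Fib.twX M e) = hq N M := by
  induction e using Int.induction_on with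
  | zero => exact hq_congr (twX_mono h.le 0) (twX_zero N) (twX_zero M)
  | succ e ih => rw [← h.hq_succ, ih]
  | pred e ih => rw [h.hq_succ, sub_add_cancel, ih]

theorem len_tw (h : FC N M) (e : ℤ) : len (Fib.twX N e) (Fib.twX M e) = len N M :=
  congrFun (h.hq_tw e) 0

theorem van (h : FC N M) {p : ℕ} (hp : 0 < p) : hq N M p = 0 := by
  obtain ⟨e, h1, h2⟩ := ((ev_van M.toLat).and (ev_van N.toLat)).exists
  rw [← h.hq_tw e]
  exact (ne_pair (twX_mono h.le e)).c_zero (h_eq_zero_iff.2 (h1 p hp))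
    (h_eq_zero_iff.2 (h2 _ p.succ_pos))

theorem chiq (h : FC N M) : M.toFam.chiq N.toFam = len N M := by
  change ∑ p ∈ Finset.range (n + 1), (-1 : ℤ) ^ p * (hq N M p : ℤ) = _
  rw [Finset.sum_eq_single 0 (fun p _ hp => by
    rw [h.van (Nat.pos_of_ne_zero hp), Nat.cast_zero, mul_zero])
    (fun h => absurd (Finset.mem_range.2 n.succ_pos) h), pow_zero, one_mul, len]

theorem chi (h : FC N M) : M.toFam.chi = N.toFam.chi + len N M := by
  rw [chi_pair h.le (finH N) (finH M), h.chiq]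

theorem cL (h : FC N M) (e : ℤ) : cL M.toLat e = cL N.toLat e + len N M := by
  rw [← h.len_tw e]
  exact (h.twX e).chi

theorem len_trans (h : FC N P) (h' : FC P M) : len N M = len N P + len P M := by
  have h1 := h.chi
  have h2 := h'.chi
  have h3 := (h.trans h').chi
  omega


theorem h_le (h : FC N M) {p : ℕ} (hp : 0 < p) : M.toFam.cech.h p ≤ N.toFam.cech.h p := by
  have := (ne_pair h.le).b_le p
  rwa [h.van hp] at this

theorem h_eq (h : FC N M) {p : ℕ} (hp : 0 < p) :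
    N.toFam.cech.h (p + 1) = M.toFam.cech.h (p + 1) :=
  (ne_pair h.le).a_eq_b (h.van hp) (h.van p.succ_pos)

theorem hL_le (h : FC N M) (e : ℤ) {p : ℕ} (hp : 0 < p) : hL M.toLat e p ≤ hL N.toLat e p :=
  (h.twX e).h_le hp


theorem regL (h : FC N M) {m : ℤ} (hN : RegL N.toLat m) : RegL M.toLat m := fun l =>
  hL_eq_zero_iff.1 (Nat.le_zero.1 ((h.hL_le _ l.succ_pos).trans (hL_eq_zero_iff.2 (hN l)).le))


/-- if `H¹(N(e)) = 0` then `Γ(M(e)) → M/N` is onto -/
theorem finrank_eq (h : FC N M) {e : ℤ} (h1 : hL N.toLat e 1 = 0) :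
    Module.finrank k (Gm M.toLat e) = Module.finrank k (Gm N.toLat e) + len N M := by
  have E := pairSES (twX_mono h.le e)
  have := finH (Fib.twX M e) 0
  have h2 := SES.finrank_exact (E.φ.H 0) (E.ψ.H 0) (E.exact_B 0)
  rw [LinearMap.finrank_range_of_inj E.φH0_injective, LinearMap.range_eq_top.2
    (E.ψH_surjective 0 (hL_eq_zero_iff.1 h1)), finrank_top] at h2
  rw [← hL_zero, ← hL_zero, ← h.len_tw e]
  exact h2


theorem ev_finrank (h : FC N M) : ∀ᶠ e in atTop,
    Module.finrank k (Gm M.toLat e) = Module.finrank k (Gm N.toLat e) + len N M :=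
  (ev_van N.toLat).mono fun _ he => h.finrank_eq (hL_eq_zero_iff.2 (he 1 one_pos))

theorem eqv_of_len (h : FC N M) (h0 : len N M = 0) : Eqv N.toFam M.toFam :=
  eqv_of_le h.le (le_of_Gm (h.ev_finrank.mono fun e he =>
    (Submodule.eq_of_le_of_finrank_le (Gm_mono h.le e) (by omega)).ge))

end FC

theorem len_congr {N M N' M' : XLat X V} (h : N.toFam.LE M.toFam) (e : Eqv N.toFam N'.toFam)
    (e' : Eqv M.toFam M'.toFam) : len N M = len N' M' := congrFun (hq_congr h e e') 0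

theorem len_self (M : XLat X V) : len M M = 0 := hq_self M 0

/-- equal Hilbert polynomials and an inclusion give equality -/
theorem eqv_of_cL {N M : XLat X V} (h : N.toFam.LE M.toFam)
    (hc : ∀ᶠ e in atTop, cL M.toLat e ≤ cL N.toLat e) : Eqv N.toFam M.toFam :=
  eqv_of_le h (le_of_Gm ((hc.and ((ev_cL M.toLat).and (ev_cL N.toLat))).mono fun e he =>
    (Submodule.eq_of_le_of_finrank_le (Gm_mono h e) (by omega)).ge))

/-! ### twists -/

section Tens
variable {G : Type*} [AddCommGroup G] (T : Tw X G)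





theorem OL_zero : Eqv (OL T 0).toFam (OX X).toFam := fun _ hI => T.zero hI

end Tens

/-! ### `Hom` lattices -/

theorem exists_gens (M : XLat X V) : ∃ (e : ℤ) (r : ℕ) (g : Fin r → V), (∀ a, g a ∈ Gm M.toLat e) ∧
    M.toFam.LE (genX X g e).toFam := by
  obtain ⟨e, he⟩ := eventually_atTop.1 (ev_gen M.toLat)
  exact ⟨e, _, _, fun a => (Module.finBasis k (Gm M.toLat e) a).2, le_genS_of_gen he⟩

theorem mem_genX {ι : Type} [Fintype ι] {g : ι → V} {e : ℤ} {I : Finset (Fin (n + 1))}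
    {i : Fin (n + 1)} (hi : i ∈ I) {x : V} : x ∈ (genX X g e).M I ↔
      ∃ c : ι → F, (∀ a, c a ∈ X.A I) ∧ ∑ a, c a • X.t i ^ (-e) • g a = x := by
  refine ⟨fun ⟨y, hy, h⟩ => ⟨X.t i ^ e • y, fun a => ?_, ?_⟩, fun ⟨c, hc, h⟩ =>
    ⟨X.t i ^ (-e) • c, (mem_twX hi).2 (mem_OP.2 fun a => ?_), ?_⟩⟩
  · have := mem_OP.1 ((mem_twX hi).1 hy) a
    rwa [neg_neg] at this
  · rw [← h, kl_apply, Fintype.linearCombination_apply]
    refine Finset.sum_congr rfl fun a _ => ?_
    rw [Pi.smul_apply, smul_eq_mul, smul_smul, mul_right_comm, ← zpow_add₀ (X.t_ne i),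
      add_neg_cancel, zpow_zero, one_mul]
  · rw [smul_smul, ← zpow_add₀ (X.t_ne i), neg_add_cancel, zpow_zero, one_smul]
    exact hc a
  · rw [← h, kl_apply, Fintype.linearCombination_apply]
    exact Finset.sum_congr rfl fun a _ => by rw [Pi.smul_apply, smul_eq_mul, mul_comm, mul_smul]

theorem exists_homX {M : XLat X V} (hM : XFull M) (N : XLat X W) : ∃ H : XLat X (V →ₗ[F] W),
    ∀ I : Finset (Fin (n + 1)), I.Nonempty → ∀ φ, φ ∈ H.M I ↔ ∀ x ∈ M.M I, φ x ∈ N.M I := by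
  obtain ⟨e, r, g, hg, hle⟩ := exists_gens M
  let ev : (V →ₗ[F] W) →ₗ[F] (Fin r → W) := LinearMap.pi fun a => LinearMap.applyₗ (g a)
  have hs : ∀ (φ : V →ₗ[F] W) {I : Finset (Fin (n + 1))} {i : Fin (n + 1)}, i ∈ I →
      ∀ x ∈ M.M I, ∃ c : Fin r → F, (∀ a, c a ∈ X.A I) ∧
        φ x = ∑ a, c a • X.t i ^ (-e) • φ (g a) := fun φ I i hi x hx => by
    obtain ⟨c, hc, rfl⟩ := (mem_genX hi).1 (hle I ⟨i, hi⟩ hx)
    exact ⟨c, hc, by simp only [map_sum, map_smul]⟩
  have hi : Function.Injective ev := (injective_iff_map_eq_zero _).2 fun φ h0 => by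
    rw [← LinearMap.ker_eq_top, eq_top_iff, ← hM {0} (sne 0), Submodule.span_le]
    intro x hx
    obtain ⟨c, -, hc⟩ := hs φ (Finset.mem_singleton_self 0) x hx
    exact hc.trans (Finset.sum_eq_zero fun a _ => by
      rw [show φ (g a) = 0 from congrFun h0 a, smul_zero, smul_zero])
  refine ⟨comapX (piX fun _ => twX N e) ev hi, fun I ⟨i, hI⟩ φ => ⟨fun h x hx => ?_, fun h =>
    mem_piFam.2 fun a => (mem_twX hI).2 ?_⟩⟩
  · obtain ⟨c, hc, e1⟩ := hs φ hI x hx
    rw [e1]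
    exact Submodule.sum_mem _ fun a _ => N.A_smul ⟨i, hI⟩ _ (hc a) _
      ((mem_twX hI).1 (mem_piFam.1 h a))
  · have := h _ (Gm_mem (hg a) hI)
    rwa [map_smul] at this

/-- the lattice `Hom(M, N)` -/
def homX (M : XLat X V) (hM : XFull M) (N : XLat X W) : XLat X (V →ₗ[F] W) :=
  (exists_homX hM N).choose

theorem mem_homX {M : XLat X V} {hM : XFull M} {N : XLat X W} {I : Finset (Fin (n + 1))}
    (hI : I.Nonempty) {φ : V →ₗ[F] W} : φ ∈ (homX M hM N).M I ↔ ∀ x ∈ M.M I, φ x ∈ N.M I :=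
  (exists_homX hM N).choose_spec I hI φ

theorem homX_mono {M : XLat X V} {hM : XFull M} {N N' : XLat X W} (h : N.toFam.LE N'.toFam) :
    (homX M hM N).toFam.LE (homX M hM N').toFam := fun I hI _ hφ =>
  (mem_homX hI).2 fun x hx => h I hI ((mem_homX hI).1 hφ x hx)

theorem FC.homX {M : XLat X V} {hM : XFull M} {N N' : XLat X W} (h : FC N N') :
    FC (homX M hM N) (homX M hM N') := h.of_ann (homX_mono h.le) fun i _ ha _ hφ =>
  (mem_homX (sne i)).2 fun x hx => ha _ ((mem_homX (sne i)).1 hφ x hx)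


/-- global sections of `Hom(M, N)(e)` -/
theorem mem_Gm_homX {M : XLat X V} {hM : XFull M} {N : XLat X W} {e : ℤ} {φ : V →ₗ[F] W} :
    φ ∈ Gm (homX M hM N).toLat e ↔ M.toFam.Maps (twX N e).toFam (kl k φ) := by
  simp only [mem_Gm, mem_homX (sne _), LinearMap.smul_apply]
  exact ⟨fun h => maps_of_single fun i x hx => (mem_twX (Finset.mem_singleton_self i)).2 (h i x hx),
    fun h i x hx => (mem_twX (Finset.mem_singleton_self i)).1 (h _ (sne i) x hx)⟩

theorem Gm_homX_apply {M : XLat X V} {hM : XFull M} {N : XLat X W} {e j : ℤ} {φ : V →ₗ[F] W}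
    (h : φ ∈ Gm (homX M hM N).toLat e) {x : V} (hx : x ∈ Gm M.toLat j) :
    φ x ∈ Gm N.toLat (e + j) := by
  rw [← Gm_tw]
  exact map_Gm_le (N := (twX N e).toLat) (mem_Gm_homX.1 h) hx

/-- a map is a section of `Hom(M, N)(e)` if it is one on generators -/
theorem mem_Gm_homX_of_gen {M : XLat X V} {hM : XFull M} {N : XLat X W} {e j : ℤ}
    {φ : V →ₗ[F] W} (hg : ∀ d, j ≤ d → Gm M.toLat (d + 1) = T1 X.toCoord • Gm M.toLat d)
    (h : ∀ x ∈ Gm M.toLat j, φ x ∈ Gm N.toLat (e + j)) : φ ∈ Gm (homX M hM N).toLat e := by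
  refine mem_Gm_homX.2 (maps_of_single fun i x hx => ?_)
  have hi := Finset.mem_singleton_self i
  obtain ⟨c, hc, rfl⟩ := (mem_genX hi).1 (le_genS_of_gen hg _ (sne i) hx)
  simp only [map_sum, map_smul]
  refine Submodule.sum_mem _ fun a _ => (twX N e).A_smul (sne i) _ (hc a) _ ((mem_twX hi).2 ?_)
  rw [smul_smul, ← zpow_add₀ (X.t_ne i), ← neg_add]
  exact mem_Gm.1 (h _ (Module.finBasis k _ a).2) i

end Crest.Agent.N265.Fib
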