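import Crest.Agent.N265.Fib.P2
import Crest.Agent.N265.Fib.Pers

/-!
# Row 265, fibrewise theory (helper2): fibres through graded pieces

* `Gm_mX` : `Γ(m_x M (e+1)) = V_x · Γ(M(e))` in the regular range;
* `exists_one_of_hyper`, `One.van_smul_le`, `van_smul_ne`, `One.finrank_Gm`, `finrank_van_smul`.
-/

set_option autoImplicit false
set_option linter.unusedSectionVars false
noncomputable section

namespace Crest.Agent.N265.Fib

open Crest.Agent.R274
open Cx_781 Defs_781 Ses_781 Lat_781 Ser_781 SnapA_99 SnapB_99 SnapC_99 SnapD_99 SnapE_99 Gen7_750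
open Xs1_781 Filter SkDefs_474 Module Pnt

universe u

variable {k : Type u} [Field k] {F : Type u} [Field F] [Algebra k F] {n : ℕ}
  {X : Defs_781.Var k F n}
  {U : Type u} [AddCommGroup U] [Module k U] [Module F U] [IsScalarTower k F U]
  {V : Type u} [AddCommGroup V] [Module k V] [Module F V] [IsScalarTower k F V]
  {W : Type u} [AddCommGroup W] [Module k W] [Module F W] [IsScalarTower k F W]

/-- the section ring is generated in degree one -/
structure NG (X : Defs_781.Var k F n) : Prop where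
  zero : AA X 0 = 1
  succ : ∀ m : ℕ, AA X (m + 1 : ℕ) = AA X 1 * AA X m

theorem ng (Sg : Br.Surf) : NG Sg.V.X := ⟨AA_zero Sg, AA_succ Sg⟩

theorem ev_mem_Gm {M : XLat X V} {i : Fin (n + 1)} {v : V} (hv : v ∈ M.M {i}) :
    ∃ m₀ : ℕ, ∀ m ≥ m₀, X.t i ^ m • v ∈ Gm M.toLat m := by
  classical
  choose N hN using fun j => M.loc (sne j) j (Finset.mem_singleton_self j) i v
    (mono1 M (Finset.mem_insert_self i _) hv)
  refine ⟨Finset.univ.sup N, fun m hm => mem_Gm.2 fun j => ?_⟩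
  obtain ⟨d, rfl⟩ := Nat.exists_eq_add_of_le' ((Finset.le_sup (Finset.mem_univ j)).trans hm)
  rw [smul_smul, zpow_neg, zpow_natCast, ← div_eq_inv_mul, ← div_pow]
  exact pow_smul_mem M (sne j) (Finset.mem_singleton_self j) i (hN j) d

theorem exists_AA {i : Fin (n + 1)} {a : F} (ha : a ∈ X.A {i}) :
    ∃ m : ℕ, ∃ f ∈ AA X m, a = X.t i ^ (-(m : ℤ)) * f := by
  obtain ⟨m, hm⟩ := ev_mem_Gm (M := OX X) ha
  exact ⟨m, _, hm m le_rfl, by
    rw [smul_eq_mul, zpow_neg, zpow_natCast, inv_mul_cancel_left₀ (pow_ne_zero _ (X.t_ne i))]⟩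

theorem t_mem_AA (i : Fin (n + 1)) : X.t i ∈ AA X 1 := T1_le_AA (t_mem_T1 i)

theorem zp_mul (i : Fin (n + 1)) (e f : ℤ) (a b : F) :
    X.t i ^ (-(e + f)) * (a * b) = X.t i ^ (-e) * a * (X.t i ^ (-f) * b) := by
  rw [neg_add, zpow_add₀ (X.t_ne i)]
  ring

theorem sub_mem_van (x : Pnt X) {l : F} (hl : l ∈ AA X 1) :
    l - x.val (X.t x.i ^ (-1 : ℤ) * l) • X.t x.i ∈ van x 1 := by
  refine mem_van.2 ⟨sub_mem hl (Submodule.smul_mem _ _ (t_mem_AA _)), ?_⟩
  rw [mul_sub, mul_smul_comm, zpow_neg_one, inv_mul_cancel₀ (X.t_ne _),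
    ← Algebra.algebraMap_eq_smul_one, ← zpow_neg_one]
  exact val_sub_const (AA_mem_O hl)

theorem t_notMem_van (x : Pnt X) : X.t x.i ∉ van x 1 := fun h => by
  have := (mem_van.1 h).2
  rw [zpow_neg_one, inv_mul_cancel₀ (X.t_ne _), val_one] at this
  exact one_ne_zero this

/-- in the range of generation the sections fill the fibre -/
theorem fib_surj {M : XLat X V} {e : ℤ}
    (hg : ∀ d, e ≤ d → Gm M.toLat (d + 1) = T1 X.toCoord • Gm M.toLat d) (x : Pnt X) {v : V}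
    (hv : v ∈ x.loc M) : ∃ g ∈ Gm M.toLat e, v - X.t x.i ^ (-e) • g ∈ x.m • x.loc M := by
  obtain ⟨c, hc, rfl⟩ := mem_loc_genX.1 (loc_mono (le_genS_of_gen hg) hv)
  refine ⟨∑ a, x.val (c a) • (finBasis k (Gm M.toLat e) a : V), Submodule.sum_mem _ fun a _ =>
    Submodule.smul_mem _ _ (finBasis k _ a).2, ?_⟩
  rw [Finset.smul_sum, ← Finset.sum_sub_distrib]
  refine Submodule.sum_mem _ fun a _ => ?_
  rw [smul_comm (_ ^ (-e))]
  exact smul_sub_mem (hc a) (Gm_mem_loc (finBasis k _ a).2)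

section Chart
variable (x : Pnt X) (M : XLat X V)

theorem A_smul_van {a : F} (ha : a ∈ X.A {x.i}) {v : V} (hv : v ∈ van x 1 • M.M {x.i}) :
    a • v ∈ van x 1 • M.M {x.i} := by
  refine Submodule.smul_induction_on (p := fun v => a • v ∈ van x 1 • M.M {x.i}) hv
    (fun l hl w hw => ?_) fun v w hv hw => by rw [smul_add]; exact add_mem hv hw
  rw [smul_comm]
  exact Submodule.smul_mem_smul hl (M.A_smul (sne _) _ ha _ hw)

theorem NG.ev_sub (h : NG X) {a : F} (ha : a ∈ X.A {x.i}) : ∀ w ∈ M.M {x.i},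
    X.t x.i • (a • w - x.val a • w) ∈ van x 1 • M.M {x.i} := by
  obtain ⟨m, f, hf, rfl⟩ := exists_AA ha
  clear ha
  induction m generalizing f with
  | zero =>
    rw [Nat.cast_zero, h.zero] at hf
    obtain ⟨c, rfl⟩ := Submodule.mem_one.1 hf
    intro w _
    simp [val_const]
  | succ m ih =>
    rw [h.succ] at hf
    refine Submodule.mul_induction_on' (C := fun f _ => ∀ w ∈ M.M {x.i}, X.t x.i •
      ((X.t x.i ^ (-((m + 1 : ℕ) : ℤ)) * f) • w - x.val (X.t x.i ^ (-((m + 1 : ℕ) : ℤ)) * f) • w) ∈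
        van x 1 • M.M {x.i}) (fun l hl g hg w hw => ?_) (fun f hf g hg h1 h2 w hw => ?_) hf
    · rw [Nat.cast_succ, add_comm (m : ℤ), zp_mul, val_mul (AA_mem_O hl) (AA_mem_O hg)]
      convert add_mem (Submodule.smul_mem_smul (sub_mem_van x hl)
        (M.A_smul (sne _) _ (mem_AA.1 hg _) _ hw)) (Submodule.smul_mem _
          (x.val (X.t x.i ^ (-1 : ℤ) * l)) (ih g hg w hw)) using 1
      rw [zpow_neg_one, smul_sub, smul_smul (X.t x.i), mul_assoc (X.t x.i)⁻¹,
        mul_inv_cancel_left₀ (X.t_ne _)]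
      simp only [← algebraMap_smul F (_ : k), map_mul]
      module
    · rw [← h.succ] at hf hg
      rw [mul_add, val_add (AA_mem_O hf) (AA_mem_O hg), add_smul, add_smul, add_sub_add_comm,
        smul_add]
      exact add_mem (h1 w hw) (h2 w hw)

theorem NG.mem_van_smul (h : NG X) {v : V} (hv : v ∈ M.M {x.i}) (h1 : v ∈ x.m • x.loc M) :
    X.t x.i • v ∈ van x 1 • M.M {x.i} := by
  obtain ⟨b, hb, h0, h2⟩ : ∃ b ∈ X.A {x.i}, x.val b ≠ 0 ∧
      b • X.t x.i • v ∈ van x 1 • M.M {x.i} := by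
    refine Submodule.smul_induction_on (p := fun v => ∃ b ∈ X.A {x.i}, x.val b ≠ 0 ∧
      b • X.t x.i • v ∈ van x 1 • M.M {x.i}) h1 (fun a ha w ⟨c, hc, hc0, hw⟩ => ?_) ?_
    · obtain ⟨b, hb, hb0, h3⟩ := mem_loc_OX.2 a.2
      have h4 := h.ev_sub x M h3 _ hw
      rw [smul_eq_mul, val_mul (x.in_i hb) a.2, mem_m.1 ha, mul_zero, zero_smul, sub_zero] at h4
      refine ⟨b * c, mul_mem hb hc, val_mul_ne hb0 hc0, ?_⟩
      convert h4 using 1
      simp only [Subalgebra.smul_def, smul_smul]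
      congr 1
      ring
    · rintro v w ⟨b, hb, hb0, hv⟩ ⟨c, hc, hc0, hw⟩
      refine ⟨b * c, mul_mem hb hc, val_mul_ne hb0 hc0, ?_⟩
      rw [smul_add, smul_add]
      refine add_mem ?_ ?_
      · rw [mul_comm, mul_smul]
        exact A_smul_van x M hc hv
      · rw [mul_smul]
        exact A_smul_van x M hb hw
  have h3 := sub_mem h2 (h.ev_sub x M hb v hv)
  rw [smul_sub, smul_comm b, sub_sub_cancel, smul_comm] at h3
  exact (Submodule.smul_mem_iff _ h0).1 h3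

end Chart

/-- points are determined by the linear forms that vanish on them -/
theorem NG.eq_of_van (h : NG X) {x y : Pnt X} (hv : van x 1 ≤ van y 1) : y = x := by
  have h0 : y.val (X.t y.i ^ (-1 : ℤ) * X.t x.i) ≠ 0 := fun h0 => t_notMem_van y (by
    have := add_mem (hv (sub_mem_van x (t_mem_AA y.i))) (Submodule.smul_mem _
      (x.val (X.t x.i ^ (-1 : ℤ) * X.t y.i)) (mem_van.2 ⟨t_mem_AA x.i, h0⟩))
    rwa [sub_add_cancel] at this)
  have h1 : y.In {x.i} := in_of_val (sne _) y.in_i fun j hj => by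
    rwa [Finset.mem_singleton.1 hj, div_eq_inv_mul, ← zpow_neg_one]
  by_contra hne
  obtain ⟨a, ha, h2, h3⟩ := exists_sep hne (sne _) x.in_i h1
  have h4 := h.ev_sub x (OX X) ha 1 (one_mem_aI X _)
  rw [h2, zero_smul, sub_zero, smul_eq_mul a, mul_one] at h4
  have h5 : X.t y.i ^ (-1 : ℤ) • X.t x.i • a ∈ y.m • y.loc (OX X) := by
    refine Submodule.smul_induction_on (p := fun v => X.t y.i ^ (-1 : ℤ) • v ∈ y.m • y.loc (OX X))
      h4 (fun l hl w hw => ?_) fun v w hv hw => by rw [smul_add]; exact add_mem hv hw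
    rw [smul_smul]
    exact mem_m_smul (AA_mem_O (van_le _ _ (hv hl))) (mem_van.1 (hv hl)).2 (h1.mem_loc (sne _) hw)
  rw [smul_smul, smul_eq_mul] at h5
  exact val_mul_ne h0 h3 (mem_m_smul_OX.1 h5).2

/-- an ideal that fixes the coordinates of `P^n` has finite support -/
theorem dimLT_fibre {j : Fin (n + 1)} {J : Ideal (X.A {j})}
    (h : ∀ P : Ideal (X.A {j}), P.IsPrime → J ≤ P → ∀ l, ∃ d : k, ∀ a : X.A {j},
      (a : F) = X.t l / X.t j - algebraMap k F d → a ∈ P) : DimLT J 1 := by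
  refine dimLT_one fun P Q hP hQ hJ hlt => ?_
  let _ := algRA X (sne j)
  have := finite_RA X (sne j)
  obtain ⟨r, h1, h2⟩ := SetLike.exists_of_lt
    (Ideal.IsIntegral.comap_lt_comap (R := X.toCoord.R {j}) hlt)
  have H : ∀ r (hr : r ∈ X.toCoord.R {j}), ∃ d : k,
      (⟨r, X.R_le (sne j) hr⟩ : X.A {j}) - algebraMap k _ d ∈ P := fun r hr => by
    induction hr using Algebra.adjoin_induction with
    | mem z hz =>
      obtain ⟨i, hi, l, rfl⟩ := hz
      obtain rfl := Finset.mem_singleton.1 hi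
      obtain ⟨d, hd⟩ := h P hP hJ l
      exact ⟨d, hd _ rfl⟩
    | algebraMap c => exact ⟨c, (sub_self (algebraMap k (X.A {j}) c)).symm ▸ zero_mem P⟩
    | add a b ha hb iha ihb =>
      obtain ⟨c, hc⟩ := iha
      obtain ⟨d, hd⟩ := ihb
      refine ⟨c + d, ?_⟩
      convert add_mem hc hd using 1
      exact Subtype.ext (by simp; ring)
    | mul a b ha hb iha ihb =>
      obtain ⟨c, hc⟩ := iha
      obtain ⟨d, hd⟩ := ihb
      refine ⟨c * d, ?_⟩
      convert add_mem (P.mul_mem_right ⟨b, X.R_le (sne j) hb⟩ hc)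
        (P.mul_mem_left (algebraMap k _ c) hd) using 1
      exact Subtype.ext (by simp; ring)
  obtain ⟨d, hd⟩ := H r r.2
  by_cases h0 : d = 0
  · rw [h0, map_zero, sub_zero] at hd
    exact h2 hd
  · have h3 := sub_mem (show (⟨r, X.R_le (sne j) r.2⟩ : X.A {j}) ∈ Q from h1) (hlt.le hd)
    rw [sub_sub_cancel] at h3
    exact hQ.ne_top (Q.eq_top_of_isUnit_mem h3 ((IsUnit.mk0 d h0).map _))

section Two
variable {X : Defs_781.Var k F 2} [IsAlgClosed k]

/-- **`Γ(m_x M (e + 1)) = V_x Γ(M(e))`** -/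
theorem NG.Gm_mX (h : NG X) (x : Pnt X) {M : XLat X V} {m e : ℤ} (hM : RegL M.toLat m)
    (he : m ≤ e) : Gm (mX x M).toLat (e + 1) = van x 1 • Gm M.toLat e := by
  refine le_antisymm ?_ (add_comm e 1 ▸ van_smul_le x M 1 e)
  set i := x.i with hi
  let c : Fin 3 → k := fun l => x.val (X.t i ^ (-1 : ℤ) * X.t l)
  let u : Fin 3 → F := fun l => X.t l - c l • X.t i
  have hu : ∀ l, u l ∈ van x 1 := fun l => sub_mem_van x (t_mem_AA l)
  have hu1 : ∀ l j, u l / X.t j = X.t l / X.t j - algebraMap k F (c l) * (X.t i / X.t j) :=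
    fun l j => by simp only [u, Algebra.smul_def]; ring
  have hui : u i = 0 := by simp [u, c, X.t_ne]
  have hu0 : u (i + 1) ≠ 0 := fun h0 => div_ne_const (X := X) (j := i + 1) (i := i)
    (by generalize i = i; revert i; decide) (c (i + 1)) (by
      have := hu1 (i + 1) i
      rwa [h0, zero_div, div_self (X.t_ne i), mul_one, eq_comm] at this)
  have huA : ∀ l j, u l / X.t j ∈ X.A {j} := fun l j => by
    rw [div_eq_inv_mul, ← zpow_neg_one]
    exact mem_AA.1 (van_le _ _ (hu l)) j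
  have hc : ∀ l : Fin 3, l = i ∨ l = i + 1 ∨ l = i + 2 := by generalize i = i; revert i; decide
  let g : (Fin 2 → V) →ₗ[F] V := u (i + 1) • LinearMap.proj 0 + u (i + 2) • LinearMap.proj 1
  have hg : ∀ y, g y = u (i + 1) • y 0 + u (i + 2) • y 1 := fun _ => rfl
  let P : XLat X (Fin 2 → V) := piX fun _ => twX M (-1)
  have hP : ∀ j y, y ∈ P.M {j} ↔ X.t j • y 0 ∈ M.M {j} ∧ X.t j • y 1 ∈ M.M {j} := fun j y => by
    refine mem_piFam.trans ?_
    simp only [Fin.forall_fin_two, mem_twX (Finset.mem_singleton_self j), neg_neg, zpow_one]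
  let N := mapX g P
  have hN : ∀ l j, ∀ w ∈ M.M {j}, (u l / X.t j) • w ∈ N.M {j} := fun l j w hw => by
    rcases hc l with rfl | rfl | rfl
    · rw [hui, zero_div, zero_smul]
      exact zero_mem _
    · exact ⟨![(X.t j)⁻¹ • w, 0], (hP _ _).2 (by simpa [X.t_ne] using hw), by
        simp [hg, div_eq_mul_inv, mul_smul]⟩
    · exact ⟨![0, (X.t j)⁻¹ • w], (hP _ _).2 (by simpa [X.t_ne] using hw), by
        simp [hg, div_eq_mul_inv, mul_smul]⟩
  -- the Koszul complex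
  let K := comapX P (LinearMap.ker g).subtype (Submodule.subtype_injective _)
  let κ : V →ₗ[F] LinearMap.ker g := LinearMap.codRestrict _
    (LinearMap.pi ![u (i + 2) • LinearMap.id, -u (i + 1) • LinearMap.id]) fun w => by
      simp [hg, smul_smul, mul_comm]
  have hκ : ∀ w, (κ w).1 = ![u (i + 2) • w, -u (i + 1) • w] := fun w => by
    funext a
    fin_cases a <;> rfl
  have hκi : Function.Injective κ := (injective_iff_map_eq_zero _).2 fun w hw => by
    simpa [hκ, hu0] using congrFun (congrArg Subtype.val hw) 1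
  have h2 : ∀ j w, w ∈ (twX M (-2)).M {j} ↔ X.t j • X.t j • w ∈ M.M {j} := fun j w => by
    rw [mem_twX (Finset.mem_singleton_self j), neg_neg, zpow_two, mul_smul]
  have hFC : FC (mapX κ (twX M (-2))) K := by
    refine ⟨le_of_single ?_, fun j => dimLT_fibre fun Q hQ hle => ?_⟩
    · rintro j _ ⟨w, hw, rfl⟩
      have h3 : ∀ l, X.t j • u l • w ∈ M.M {j} := fun l => by
        have := M.A_smul (sne j) _ (huA l j) _ ((h2 j w).1 hw)
        rwa [smul_smul, div_mul_cancel₀ _ (X.t_ne j), smul_comm] at this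
      exact (hP j (κ w).1).2 (by simpa [hκ] using ⟨h3 _, h3 _⟩)
    · have h3 : ∀ l, (⟨_, huA l j⟩ : X.A {j}) ∈ Q := fun l => hle fun y hy => by
        have h4 := (hP j y.1).1 hy
        have h5 : u (i + 1) • y.1 0 = -(u (i + 2) • y.1 1) := eq_neg_of_add_eq_zero_left y.2
        rcases hc l with rfl | rfl | rfl
        · simp [hui]
        · refine ⟨-((X.t j)⁻¹ • y.1 1), (h2 _ _).2 (by simpa [X.t_ne] using h4.2),
            Subtype.ext (funext fun a => ?_)⟩
          fin_cases a <;> simp [hκ, div_eq_inv_mul, mul_smul, h5]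
        · refine ⟨(X.t j)⁻¹ • y.1 0, (h2 _ _).2 (by simpa [X.t_ne] using h4.1),
            Subtype.ext (funext fun a => ?_)⟩
          fin_cases a <;> simp [hκ, div_eq_inv_mul, mul_smul, h5]
      have h4 : c j ≠ 0 := fun h0 => hQ.ne_top ((Ideal.eq_top_iff_one _).2 (by
        convert h3 j using 1
        exact Subtype.ext (by simp [hu1, h0, X.t_ne])))
      refine fun l => ⟨c l / c j, fun a ha => ?_⟩
      convert sub_mem (h3 l) (Q.mul_mem_left (algebraMap k _ (c l / c j)) (h3 j)) using 1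
      refine Subtype.ext (ha.trans ?_)
      have : algebraMap k F (c j) ≠ 0 := (map_ne_zero _).2 h4
      simp only [hu1, AddSubgroupClass.coe_sub, MulMemClass.coe_mul, SubalgebraClass.coe_algebraMap,
        map_div₀, div_self (X.t_ne j)]
      field_simp
      ring
  have hK : hL K.toLat (e + 1) 1 = 0 := by
    refine Nat.le_zero.1 ((hFC.hL_le _ one_pos).trans_eq ?_)
    have h3 := Ch.h_of_maps (M := (twX (twX M (-2)) (e + 1)).toFam)
      (N := (twX (mapX κ (twX M (-2))) (e + 1)).toFam) (L := kl k κ) (fun I ⟨j, hj⟩ w hw => by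
        rw [mem_twX hj] at hw ⊢
        exact ⟨_, hw, map_smul κ _ _⟩) hκi fun I ⟨j, hj⟩ z hz => by
          obtain ⟨w, hw, e1⟩ := (mem_twX hj).1 hz
          refine ⟨X.t j ^ (e + 1) • w, (mem_twX hj).2 ?_, ?_⟩
          · rwa [smul_smul, ← zpow_add₀ (X.t_ne j), neg_add_cancel, zpow_zero, one_smul]
          · rw [kl_apply, map_smul, ← kl_apply (k := k), e1, smul_smul, ← zpow_add₀ (X.t_ne j),
              add_neg_cancel, zpow_zero, one_smul]
    exact (congrFun h3 1).symm.trans (hL_eq_zero_iff.2 (van_tw (hM.van one_pos (by omega))))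
  have h5 : Gm N.toLat (e + 1) ≤ van x 1 • Gm M.toLat e := fun z hz => by
    obtain ⟨y, hy, rfl⟩ := Gm_surj_of_exact (exact_ker (M := P.toLat) (N := N.toLat) (g := g)
      (fun _ _ x hx => ⟨x, hx, rfl⟩) fun _ _ _ hz => hz) (hL_eq_zero_iff.1 hK) hz
    have h3 : ∀ a, y a ∈ Gm M.toLat e := fun a => by
      have := Gm_pi.1 hy a
      rwa [twX, Gm_tw, show -1 + (e + 1) = e by ring] at this
    exact add_mem (Submodule.smul_mem_smul (hu _) (h3 0)) (Submodule.smul_mem_smul (hu _) (h3 1))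
  -- sections of degree `e` fill `M / N`
  have h6 : ∀ d : ℕ, ∀ z ∈ Gm M.toLat (d + e), ∃ y ∈ Gm M.toLat e,
      X.t i ^ (-(d + e)) • z - X.t i ^ (-e) • y ∈ N.M {i} := fun d => by
    induction d with
    | zero => exact fun z hz => ⟨z, by simpa using hz, by simp⟩
    | succ d ih =>
      intro z hz
      rw [Nat.cast_succ, add_right_comm] at hz ⊢
      rw [hM.gen (by omega)] at hz
      refine Submodule.smul_induction_on (p := fun z => ∃ y ∈ Gm M.toLat e,
        X.t i ^ (-(d + e + 1)) • z - X.t i ^ (-e) • y ∈ N.M {i}) hz (fun l hl z hz => ?_) ?_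
      · obtain ⟨y, hy, h3⟩ := ih z hz
        obtain ⟨γ, rfl⟩ := (Submodule.mem_span_range_iff_exists_fun k).1 hl
        refine ⟨∑ l, (γ l * c l) • y, Submodule.sum_mem _ fun l _ => Submodule.smul_mem _ _ hy, ?_⟩
        rw [Finset.sum_smul, Finset.smul_sum, Finset.smul_sum, ← Finset.sum_sub_distrib]
        refine Submodule.sum_mem _ fun l _ => ?_
        convert Submodule.smul_mem _ (γ l) (add_mem (hN l i _ (mem_Gm.1 hz i))
          (Submodule.smul_mem _ (c l) h3)) using 1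
        rw [smul_assoc, smul_comm _ (γ l), zp_succ, hu1, div_self (X.t_ne i), mul_one, sub_smul,
          algebraMap_smul, smul_comm _ (γ l * c l), mul_smul]
        module
      · rintro z z' ⟨y, hy, h3⟩ ⟨y', hy', h4⟩
        exact ⟨y + y', add_mem hy hy', by
          rw [smul_add, smul_add, add_sub_add_comm]; exact add_mem h3 h4⟩
  have h7 : ∀ w ∈ M.M {i}, ∃ y ∈ Gm M.toLat e, w - X.t i ^ (-e) • y ∈ N.M {i} := fun w hw => by
    obtain ⟨m₀, hm⟩ := ev_mem_Gm hw
    obtain ⟨d, m', h3, h4⟩ : ∃ d m' : ℕ, m₀ ≤ m' ∧ (m' : ℤ) = d + e :=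
      ⟨(m₀ + e.natAbs - e).toNat, m₀ + e.natAbs, by omega, by omega⟩
    have := h6 d _ (h4 ▸ hm m' h3)
    rwa [← h4, smul_smul, zpow_neg, zpow_natCast, inv_mul_cancel₀ (pow_ne_zero _ (X.t_ne i)),
      one_smul] at this
  intro z hz
  obtain ⟨hz1, hz2⟩ := mem_Gm_mX.1 hz
  obtain ⟨g', h8, h9⟩ : ∃ g' ∈ van x 1 • Gm M.toLat e, (X.t i)⁻¹ • X.t i • X.t i ^ (-(e + 1)) • z
      - X.t i ^ (-(e + 1)) • g' ∈ N.M {i} := by
    refine Submodule.smul_induction_on (p := fun v => ∃ g' ∈ van x 1 • Gm M.toLat e,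
      (X.t i)⁻¹ • v - X.t i ^ (-(e + 1)) • g' ∈ N.M {i})
      (h.mem_van_smul x M (mem_Gm.1 hz1 _) hz2) (fun l hl w hw => ?_) ?_
    · obtain ⟨y, hy, h3⟩ := h7 w hw
      refine ⟨_, Submodule.smul_mem_smul hl hy, ?_⟩
      rw [zp_succ, smul_smul, ← div_eq_inv_mul, ← smul_sub, div_eq_inv_mul, ← zpow_neg_one]
      exact N.A_smul (sne i) _ (mem_AA.1 (van_le _ _ hl) i) _ h3
    · rintro z z' ⟨y, hy, h3⟩ ⟨y', hy', h4⟩
      exact ⟨y + y', add_mem hy hy', by
        rw [smul_add, smul_add, add_sub_add_comm]; exact add_mem h3 h4⟩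
  rw [inv_smul_smul₀ (X.t_ne i), ← smul_sub] at h9
  have h10 : z - g' ∈ Gm M.toLat (e + 1) :=
    sub_mem hz1 (Gm_mono (elem_mX x M).le _ (add_comm e 1 ▸ van_smul_le x M 1 e h8))
  rw [← sub_add_cancel z g']
  refine add_mem (h5 (mem_Gm_of_loc fun y => ?_)) h8
  by_cases hy : y.In {i}
  · refine of_smul_mem (val_zpow_ne (y.in_i.val_div hy (Finset.mem_singleton_self _)
      (Finset.mem_singleton_self _)) (e + 1)) ?_
    rw [smul_smul, div_zpow, div_mul_eq_mul_div, ← zpow_add₀ (X.t_ne _), add_neg_cancel, zpow_zero,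
      one_div, ← zpow_neg]
    exact hy.mem_loc (sne i) h9
  · have h3 : y.val (X.t i / X.t y.i) = 0 := by
      by_contra h0
      exact hy (in_of_val (sne i) y.in_i fun j hj => Finset.mem_singleton.1 hj ▸ h0)
    have h4 := y.in_i.div_mem (Finset.mem_singleton_self _) i
    refine of_smul_mem (a := u y.i / X.t y.i) ?_ (mem_loc_i (hN _ _ _ (mem_Gm.1 h10 _)))
    rw [hu1, div_self (X.t_ne _), val_sub (one_mem _) (mul_mem (y.O.algebraMap_mem _) h4),
      val_mul (y.O.algebraMap_mem _) h4, h3]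
    simp

theorem Elem.finrank_of_surj {x : Pnt X} {N M : XLat X V} (h : Elem x N M) {e : ℤ}
    (h2 : ∀ v ∈ x.loc M, ∃ g ∈ Gm M.toLat e, v - X.t x.i ^ (-e) • g ∈ x.loc N) :
    finrank k (Gm M.toLat e) = finrank k (Gm N.toLat e) + len N M := by
  let Q := ((x.loc N).restrictScalars k).comap ((x.loc M).subtype.restrictScalars k)
  have hk : ∀ v, Q.mkQ v = 0 ↔ v.1 ∈ x.loc N := fun v => Submodule.Quotient.mk_eq_zero _
  let ρ : Gm M.toLat e →ₗ[k] x.loc M :=
    { toFun := fun g => ⟨_, Gm_mem_loc g.2⟩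
      map_add' := fun _ _ => Subtype.ext (smul_add _ _ _)
      map_smul' := fun _ _ => Subtype.ext (smul_comm _ _ _) }
  have h3 := (Q.mkQ ∘ₗ ρ).finrank_range_add_finrank_ker
  have h4 : LinearMap.range (Q.mkQ ∘ₗ ρ) = ⊤ := LinearMap.range_eq_top.2 fun z => by
    obtain ⟨v, rfl⟩ := Q.mkQ_surjective z
    obtain ⟨g, hg, h5⟩ := h2 v v.2
    exact ⟨⟨g, hg⟩, (sub_eq_zero.1 ((map_sub Q.mkQ _ _).symm.trans ((hk _).2 h5))).symm⟩
  have h5 : LinearMap.ker (Q.mkQ ∘ₗ ρ) = (Gm N.toLat e).comap (Gm M.toLat e).subtype :=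
    Submodule.ext fun g => (hk _).trans (h.mem_Gm.trans (and_iff_right g.2)).symm
  rw [h4, h5, finrank_top, (Submodule.comapSubtypeEquivOfLe (Gm_mono h.le e)).finrank_eq,
    ← h.len_eq Q.mkQ Q.mkQ_surjective hk] at h3
  omega

theorem Elem.finrank_Gm {x : Pnt X} {N M : XLat X V} (h : Elem x N M) {m e : ℤ}
    (hM : RegL M.toLat m) (he : m ≤ e) :
    finrank k (Gm M.toLat e) = finrank k (Gm N.toLat e) + len N M :=
  h.finrank_of_surj fun _ hv =>
    let ⟨g, h1, h2⟩ := fib_surj (fun _ hd => hM.gen (he.trans hd)) x hv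
    ⟨g, h1, h.m h2⟩

theorem One.finrank_Gm {x : Pnt X} {N M : XLat X V} (h : One x N M) {m e : ℤ}
    (hM : RegL M.toLat m) (he : m ≤ e) :
    finrank k (Gm M.toLat e) = finrank k (Gm N.toLat e) + 1 :=
  h.len ▸ h.toElem.finrank_Gm hM he

theorem Elem.van_smul_le {x : Pnt X} {N M : XLat X V} (h : Elem x N M) (e f : ℤ) :
    van x e • Gm M.toLat f ≤ Gm N.toLat (e + f) := (Fib.van_smul_le x M e f).trans (Gm_mono h.mX_le _)

/-- **E2** -/
theorem One.van_smul_le {x : Pnt X} {N M : XLat X V} (h : One x N M) (e : ℤ) :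
    van x 1 • Gm M.toLat e ≤ Gm N.toLat (e + 1) := add_comm 1 e ▸ h.toElem.van_smul_le 1 e

/-- the dimension of the fibre -/
theorem NG.finrank_van_smul (h : NG X) (x : Pnt X) {M : XLat X V} {m e : ℤ} (hM : RegL M.toLat m)
    (he : m ≤ e) : finrank k (van x 1 • Gm M.toLat e : Submodule k V) + len (mX x M) M =
      finrank k (Gm M.toLat (e + 1)) := by
  rw [← h.Gm_mX x hM he, (elem_mX x M).finrank_Gm hM (show m ≤ e + 1 by omega)]

/-- `SyzF.rk` -/
theorem NG.finrank_van_smul_of_locF [FiniteDimensional F V] (h : NG X) (x : Pnt X) {M : XLat X V}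
    (hf : LocF M) {m e : ℤ} (hM : RegL M.toLat m) (he : m ≤ e) :
    finrank k (van x 1 • Gm M.toLat e : Submodule k V) + finrank F V =
      finrank k (Gm M.toLat (e + 1)) := by
  obtain ⟨b, hb⟩ := hf x
  rw [← h.finrank_van_smul x hM he, len_mX hb, Fintype.card_fin]

theorem NG.van_smul_ne (h : NG X) (x : Pnt X) {M : XLat X V} {m e : ℤ} (hM : RegL M.toLat m)
    (he : m ≤ e) (h0 : x.loc M ≠ ⊥) : van x 1 • Gm M.toLat e ≠ Gm M.toLat (e + 1) := fun h1 => by
  have h2 := h.finrank_van_smul x hM he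
  rw [h1] at h2
  have h3 := loc_congr (x := x) ((elem_mX x M).fc.eqv_of_len (by omega))
  rw [loc_mX] at h3
  exact h0 (eq_bot_iff.2 (nak (fg_loc M) (h3.ge.trans le_sup_right)))

/-- a functional on sections that kills `Γ(m_x M(e))` comes from the fibre -/
theorem exists_fib_fun {x : Pnt X} {M : XLat X V} {m e : ℤ} (hM : RegL M.toLat m) (he : m ≤ e)
    {E : Type*} [AddCommGroup E] [Module k E] (f : Gm M.toLat e →ₗ[k] E)
    (hf : ∀ g : Gm M.toLat e, g.1 ∈ Gm (mX x M).toLat e → f g = 0) :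
    ∃ μ : x.loc M →ₗ[k] E, (∀ v : x.loc M, v.1 ∈ x.m • x.loc M → μ v = 0) ∧
      ∀ g : Gm M.toLat e, μ ⟨_, Gm_mem_loc g.2⟩ = f g := by
  let Q := ((x.m • x.loc M).restrictScalars k).comap ((x.loc M).subtype.restrictScalars k)
  have hk : ∀ v, Q.mkQ v = 0 ↔ v.1 ∈ x.m • x.loc M := fun v => Submodule.Quotient.mk_eq_zero _
  let ρ : Gm M.toLat e →ₗ[k] x.loc M :=
    { toFun := fun g => ⟨_, Gm_mem_loc g.2⟩
      map_add' := fun _ _ => Subtype.ext (smul_add _ _ _)
      map_smul' := fun _ _ => Subtype.ext (smul_comm _ _ _) }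
  obtain ⟨s, hs⟩ := (Q.mkQ ∘ₗ ρ).exists_rightInverse_of_surjective (LinearMap.range_eq_top.2
    fun z => by
      obtain ⟨v, rfl⟩ := Q.mkQ_surjective z
      obtain ⟨g, hg, h5⟩ := fib_surj (fun _ hd => hM.gen (he.trans hd)) x v.2
      exact ⟨⟨g, hg⟩, (sub_eq_zero.1 ((map_sub Q.mkQ _ _).symm.trans ((hk _).2 h5))).symm⟩)
  refine ⟨f ∘ₗ s ∘ₗ Q.mkQ, fun v hv => by simp [(hk v).2 hv], fun g => ?_⟩
  refine sub_eq_zero.1 ((map_sub f _ _).symm.trans (hf _ (mem_Gm_mX.2 ⟨Subtype.prop _, ?_⟩)))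
  refine (hk (ρ _)).1 ?_
  rw [map_sub, map_sub, sub_eq_zero]
  exact DFunLike.congr_fun hs _

/-- **E1**: hyperplanes of the fibre give sublattices of colength one -/
theorem NG.exists_one_of_hyper (h : NG X) (x : Pnt X) {M : XLat X V} {m e : ℤ}
    (hM : RegL M.toLat m) (he : m ≤ e) {H : Submodule k V} (h1 : van x 1 • Gm M.toLat e ≤ H)
    (h2 : H ≤ Gm M.toLat (e + 1)) (h3 : finrank k H + 1 = finrank k (Gm M.toLat (e + 1))) :
    ∃ N, One x N M ∧ Gm N.toLat (e + 1) = H := by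
  obtain ⟨g, hg, hgH⟩ := SetLike.exists_of_lt (lt_of_le_of_ne h2 fun h4 => by
    rw [h4] at h3; omega)
  obtain ⟨f, hf, h4⟩ := Submodule.exists_dual_map_eq_bot_of_notMem hgH inferInstance
  have h5 : ∀ w ∈ H, f w = 0 := fun w hw =>
    (Submodule.mem_bot k).1 (h4 ▸ Submodule.mem_map_of_mem hw)
  obtain ⟨μ, h6, h7⟩ := exists_fib_fun (x := x) hM (show m ≤ e + 1 by omega)
    (f ∘ₗ (Gm M.toLat (e + 1)).subtype) fun w hw => h5 _ (h1 (h.Gm_mX x hM he ▸ hw))
  obtain ⟨N, h8, h9⟩ := exists_one_of_fun μ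
    (fun h0 => hf ((h7 ⟨g, hg⟩).symm.trans (DFunLike.congr_fun h0 _))) h6
  have h10 := h8.finrank_Gm hM (show m ≤ e + 1 by omega)
  exact ⟨N, h8, (Submodule.eq_of_le_of_finrank_le (fun w hw => h8.mem_Gm.2 ⟨h2 hw,
    (h9 ⟨_, Gm_mem_loc (h2 hw)⟩).1 ((h7 ⟨w, h2 hw⟩).trans (h5 w hw))⟩) (by omega)).symm⟩


end Two

end Crest.Agent.N265.Fib
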