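import Crest.Agent.N265.Fib.P4

/-!
# Row 265, fibrewise theory (helper2): syzygy lattices and `Hom(B, J)`

* `lc u`, `syz X u` (syzygies of `u`), `Gens u M`, `resH u`, `HB u J = Hom(B, J)`, `QB u J`, `KB`;
* `ext_len` : `Hom(B, L) / Hom(A, L)` has length `n`;
* `chi_HB`, `h1_HB`, `h2_HB`.
-/

set_option autoImplicit false
set_option linter.unusedSectionVars false
noncomputable section

namespace Crest.Agent.N265.Fib

open Crest.Agent.R274
open Cx_781 Defs_781 Ses_781 Lat_781 Ser_781 SnapA_99 SnapB_99 SnapC_99 SnapD_99 SnapE_99 Gen7_750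
open Xs1_781 Filter SkDefs_474 Module Pnt Ad1_269

universe u

variable {k : Type u} [Field k] {F : Type u} [Field F] [Algebra k F] {n : ℕ}
  {X : Defs_781.Var k F n}
  {V : Type u} [AddCommGroup V] [Module k V] [Module F V] [IsScalarTower k F V]
  {W : Type u} [AddCommGroup W] [Module k W] [Module F W] [IsScalarTower k F W]
  {ι : Type} [Fintype ι]

/-- `c ↦ ∑ c_a u_a` -/
abbrev lc (F : Type u) [Field F] {V : Type u} [AddCommGroup V] [Module F V] {ι : Type} [Fintype ι]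
    (u : ι → V) : (ι → F) →ₗ[F] V := Fintype.linearCombination F u

theorem lc_apply (u : ι → V) (c : ι → F) : lc F u c = ∑ a, c a • u a :=
  Fintype.linearCombination_apply _ _ _

variable (X) in
/-- the syzygies of `u` -/
def syz (u : ι → V) : XLat X (LinearMap.ker (lc F u)) :=
  comapX (OP X ι) (LinearMap.ker (lc F u)).subtype (Submodule.subtype_injective _)

theorem xfull_syz (u : ι → V) : XFull (syz X u) := xfull_comapX (xfull_OP ι) _ _

theorem mem_loc_syz {x : Pnt X} {u : ι → V} {s : LinearMap.ker (lc F u)} :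
    s ∈ x.loc (syz X u) ↔ ∀ a, s.1 a ∈ x.O := mem_loc_comapX.trans mem_loc_OP

theorem mem_Gm_syz {u : ι → V} {e : ℤ} {s : LinearMap.ker (lc F u)} :
    s ∈ Gm (syz X u).toLat e ↔ ∀ a, s.1 a ∈ AA X e :=
  (mem_Gm_comap (hg := Submodule.subtype_injective _)).trans mem_Gm_OP

/-- `u` generates `M` -/
def Gens (u : ι → V) (M : XLat X V) : Prop :=
  ∀ (x : Pnt X) v, v ∈ x.loc M ↔ ∃ c : ι → F, (∀ a, c a ∈ x.O) ∧ lc F u c = v

theorem Gens.mem {u : ι → V} {M : XLat X V} (h : Gens u M) (x : Pnt X) (a : ι) : u a ∈ x.loc M := by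
  classical
  refine (h x _).2 ⟨Pi.single a 1, fun b => ?_, by simp⟩
  rw [Pi.single_apply]
  split_ifs
  exacts [one_mem _, zero_mem _]

theorem Gens.congr {u : ι → V} {M M' : XLat X V} (h : Gens u M) (e : Eqv M.toFam M'.toFam) :
    Gens u M' := fun x v => loc_congr (x := x) e ▸ h x v


theorem gens_of_le {u : ι → V} {M : XLat X V} {p : ℤ} (h : ∀ a, u a ∈ Gm M.toLat p)
    (hle : M.toFam.LE (genX X u p).toFam) : Gens u (twX M p) := fun x v => by
  rw [mem_loc_twX, loc_congr (eqv_of_le hle (genX_le h)), mem_loc_genX]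
  refine exists_congr fun c => and_congr_right fun _ => ?_
  simp only [smul_comm (c _), ← Finset.smul_sum, lc_apply]
  exact (smul_right_injective V (zpow_ne_zero (-p) (X.t_ne x.i))).eq_iff

theorem gens_of_span {u : ι → V} {M : XLat X V} {p : ℤ}
    (hg : ∀ d, p ≤ d → Gm M.toLat (d + 1) = T1 X.toCoord • Gm M.toLat d)
    (h : Submodule.span k (Set.range u) = Gm M.toLat p) : Gens u (twX M p) := by
  refine gens_of_le (fun a => h.le (Submodule.subset_span ⟨a, rfl⟩))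
    ((le_genS_of_gen hg).trans (genS_le (h.ge.trans (Submodule.span_le.2
      (Set.range_subset_iff.2 fun a => ?_)))))
  classical
  have := sum_mem_genX (X := X) u p (e := 0) (x := Pi.single a 1) fun b => by
    rw [Pi.single_apply]
    split_ifs
    exacts [one_mem_AA, zero_mem _]
  simpa [Pi.single_apply] using this

theorem RegL.twX {M : XLat X V} {p : ℤ} (h : RegL M.toLat p) : RegL (twX M p).toLat 0 :=
  fun l => van_tw (by simpa [sub_eq_add_neg] using h l)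

theorem FC.mapX {N M : XLat X V} (h : FC N M) (g : V →ₗ[F] W) : FC (mapX g N) (mapX g M) :=
  h.of_ann (fun I hI => Submodule.map_mono (h.le I hI)) fun i a ha => by
    rintro _ ⟨v, hv, rfl⟩
    exact ⟨_, ha v hv, map_smul g _ v⟩

theorem FC.comapX {N M : XLat X W} (h : FC N M) (g : V →ₗ[F] W) (hg : Function.Injective g) :
    FC (comapX N g hg) (comapX M g hg) :=
  h.of_ann (fun I hI _ hv => h.le I hI hv) fun i a ha v hv =>
    show g _ ∈ N.M {i} by rw [map_smul]; exact ha _ hv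

/-- restriction of `φ : F^ι → W` to the syzygies -/
def resH (u : ι → V) (W : Type u) [AddCommGroup W] [Module F W] :
    (ι → W) →ₗ[F] (LinearMap.ker (lc F u) →ₗ[F] W) where
  toFun φ := lc F φ ∘ₗ (LinearMap.ker (lc F u)).subtype
  map_add' φ ψ := LinearMap.ext fun s => by simp [lc_apply, Finset.sum_add_distrib]
  map_smul' c φ := LinearMap.ext fun s => by simp [lc_apply, Finset.smul_sum, smul_comm c]

theorem resH_apply (u : ι → V) (φ : ι → W) (s : LinearMap.ker (lc F u)) :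
    resH u W φ s = lc F φ s.1 := rfl

/-- `Hom(B, J)` -/
def HB (u : ι → V) (J : XLat X W) : XLat X (LinearMap.ker (lc F u) →ₗ[F] W) :=
  homX (syz X u) (xfull_syz u) J

/-- the image of `Hom(A, J)` -/
def QB (u : ι → V) (J : XLat X W) : XLat X (LinearMap.ker (lc F u) →ₗ[F] W) :=
  mapX (resH u W) (piX fun _ => J)

theorem lc_mem_loc {x : Pnt X} {J : XLat X W} {φ : ι → W} (h : ∀ a, φ a ∈ x.loc J) {c : ι → F}
    (hc : ∀ a, c a ∈ x.O) : lc F φ c ∈ x.loc J :=
  lc_apply φ c ▸ Submodule.sum_mem _ fun a _ => smul_loc (hc a) (h a)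

theorem QB_le (u : ι → V) (J : XLat X W) : (QB u J).toFam.LE (HB u J).toFam := by
  rintro I hI _ ⟨φ, h, rfl⟩
  refine (mem_homX hI).2 fun s hs => ?_
  rw [kl_apply, resH_apply, lc_apply]
  exact Submodule.sum_mem _ fun a _ => J.A_smul hI _ (mem_OP.1 hs a) _ (mem_piFam.1 h a)

theorem toSpan_inj {u : ι → F} (hu : u ≠ 0) :
    Function.Injective (LinearMap.toSpanSingleton F _ u) := smul_left_injective F hu

/-- `Hom(M, J)` for `M` of rank one generated by `u` -/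
def KB (u : ι → F) (hu : u ≠ 0) (J : XLat X F) : XLat X F :=
  comapX (piX fun _ => J) (LinearMap.toSpanSingleton F _ u) (toSpan_inj hu)

theorem lc_surj {u : ι → F} (hu : u ≠ 0) : Function.Surjective (lc F u) := fun f => by
  classical
  obtain ⟨a, ha⟩ := Function.ne_iff.1 hu
  exact ⟨Pi.single a (f / u a), by simp [div_mul_cancel₀ f ha]⟩

theorem finrank_ker_lc {u : ι → F} (hu : u ≠ 0) :
    finrank F (LinearMap.ker (lc F u)) + 1 = Fintype.card ι := by
  have := (lc F u).finrank_range_add_finrank_ker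
  rw [LinearMap.range_eq_top.2 (lc_surj hu), finrank_top, finrank_self,
    finrank_fintype_fun_eq_card] at this
  omega

theorem resH_eq_zero {u φ : ι → F} (hu : u ≠ 0) (h : resH (F := F) u F φ = 0) : ∃ c : F, c • u = φ := by
  classical
  obtain ⟨s, hs⟩ := lc_surj hu 1
  refine ⟨lc F φ s, funext fun a => ?_⟩
  have := DFunLike.congr_fun h ⟨Pi.single a 1 - u a • s, by simp [hs]⟩
  rw [resH_apply, map_sub, map_smul, LinearMap.zero_apply, sub_eq_zero] at this
  simpa [mul_comm] using this.symm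

theorem exact_KB {u : ι → F} (hu : u ≠ 0) (J : XLat X F) :
    Exact (KB u hu J).toFam (piX fun _ : ι => J).toFam (QB u J).toFam
      (kl k (LinearMap.toSpanSingleton F _ u)) (kl k (resH u F)) where
  maps _ _ _ h := h
  maps' _ _ x hx := ⟨x, hx, rfl⟩
  inj _ _ _ _ h := toSpan_inj hu (h.trans (map_zero _).symm)
  comp _ _ c _ := LinearMap.ext fun s => by
    have : lc F u s.1 = 0 := s.2
    rw [kl_apply, kl_apply, LinearMap.toSpanSingleton_apply, map_smul, LinearMap.smul_apply,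
      resH_apply, this, smul_zero, LinearMap.zero_apply]
  ex _ _ y hy h :=
    let ⟨c, hc⟩ := resH_eq_zero hu h
    ⟨c, show c • u ∈ _ from hc ▸ hy, hc⟩
  surj _ _ _ h := h

/-! ### one more generator -/

section Step
variable (u₀ : V) (u : ι → V)

/-- add the generator `u₀` -/
abbrev cns : Option ι → V := fun o => o.elim u₀ u

theorem lc_cns (c : Option ι → F) :
    lc F (cns u₀ u) c = c none • u₀ + lc F u fun a => c (some a) := by
  rw [lc_apply, lc_apply, Fintype.sum_option]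
  rfl

/-- extension by zero -/
def jS : LinearMap.ker (lc F u) →ₗ[F] LinearMap.ker (lc F (cns u₀ u)) where
  toFun s := ⟨fun o => o.elim 0 s.1, by
    rw [LinearMap.mem_ker, lc_cns]; simp⟩
  map_add' s t := Subtype.ext (funext fun o => by cases o <;> simp)
  map_smul' c s := Subtype.ext (funext fun o => by cases o <;> simp)

/-- the coefficient of `u₀` -/
def πS : LinearMap.ker (lc F (cns u₀ u)) →ₗ[F] F :=
  LinearMap.proj none ∘ₗ (LinearMap.ker (lc F (cns u₀ u))).subtype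

variable {u₀ u}
theorem πS_apply (s : LinearMap.ker (lc F (cns u₀ u))) : πS u₀ u s = s.1 none := rfl
theorem πS_jS (s : LinearMap.ker (lc F u)) : πS u₀ u (jS u₀ u s) = 0 := rfl

theorem jS_inj : Function.Injective (jS (F := F) u₀ u) := fun _ _ h =>
  Subtype.ext (funext fun a => congrFun (congrArg Subtype.val h) (some a))

theorem exists_jS {s : LinearMap.ker (lc F (cns u₀ u))} (h : πS u₀ u s = 0) :
    ∃ s', jS u₀ u s' = s := by
  have h1 := s.2
  rw [LinearMap.mem_ker, lc_cns, ← πS_apply, h, zero_smul, zero_add] at h1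
  exact ⟨⟨_, h1⟩, Subtype.ext (funext fun o => by cases o; exacts [h.symm, rfl])⟩

theorem jS_mem_loc {x : Pnt X} {s : LinearMap.ker (lc F u)} :
    jS u₀ u s ∈ x.loc (syz X (cns u₀ u)) ↔ s ∈ x.loc (syz X u) := by
  rw [mem_loc_syz, mem_loc_syz, Option.forall]
  exact and_iff_right (zero_mem _)

/-- maps on the old syzygies extend with a prescribed value on a new one -/
theorem exists_ext {e : LinearMap.ker (lc F (cns u₀ u))} (he : πS u₀ u e ≠ 0)
    (ψ' : LinearMap.ker (lc F u) →ₗ[F] W) (y : W) :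
    ∃ ψ : LinearMap.ker (lc F (cns u₀ u)) →ₗ[F] W, ψ ∘ₗ jS u₀ u = ψ' ∧ ψ e = y := by
  obtain ⟨ψ, hψ⟩ : ∃ ψ : LinearMap.ker (lc F (cns u₀ u)) →ₗ[F] W, ψ ∘ₗ jS u₀ u = ψ' := by
    obtain ⟨r, hr⟩ := (jS (F := F) u₀ u).exists_leftInverse_of_injective
      (LinearMap.ker_eq_bot.2 jS_inj)
    exact ⟨ψ' ∘ₗ r, by rw [LinearMap.comp_assoc, hr, LinearMap.comp_id]⟩
  exact ⟨ψ + (πS u₀ u).smulRight ((πS u₀ u e)⁻¹ • (y - ψ e)),
    LinearMap.ext fun s => by simp [πS_jS, ← hψ], by simp [smul_inv_smul₀ he]⟩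

theorem eq_smul_πS {e : LinearMap.ker (lc F (cns u₀ u))} (he : πS u₀ u e ≠ 0)
    {ψ : LinearMap.ker (lc F (cns u₀ u)) →ₗ[F] W} (h : ψ ∘ₗ jS u₀ u = 0) (s) :
    ψ s = πS u₀ u s • (πS u₀ u e)⁻¹ • ψ e := by
  obtain ⟨s', hs⟩ := exists_jS (s := s - (πS u₀ u s * (πS u₀ u e)⁻¹) • e) (by simp [he])
  have := DFunLike.congr_fun h s'
  rwa [LinearMap.comp_apply, hs, map_sub, map_smul, LinearMap.zero_apply, sub_eq_zero,
    mul_smul] at this

variable {x : Pnt X} {M' M : XLat X V}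

theorem Gens.exists_syz (hg : Gens u M') {y : Pnt X} {c : F} (hc : c ∈ y.O)
    (h : c • u₀ ∈ y.loc M') : ∃ e ∈ y.loc (syz X (cns u₀ u)), πS u₀ u e = c := by
  obtain ⟨w, hw, e⟩ := (hg y _).1 (neg_mem h)
  exact ⟨⟨fun o => o.elim c w, by rw [LinearMap.mem_ker, lc_cns]; simp [e]⟩,
    mem_loc_syz.2 (Option.forall.2 ⟨hc, hw⟩), rfl⟩

theorem Gens.val_πS (hg : Gens u M') (h0 : u₀ ∉ x.loc M') {s}
    (hs : s ∈ x.loc (syz X (cns u₀ u))) : x.val (πS u₀ u s) = 0 := by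
  by_contra hne
  have h1 := s.2
  rw [LinearMap.mem_ker, lc_cns, add_eq_zero_iff_eq_neg] at h1
  exact h0 (of_smul_mem hne (h1 ▸ neg_mem ((hg x _).2 ⟨_, fun a => mem_loc_syz.1 hs _, rfl⟩)))

theorem Gens.cns [IsAlgClosed k] (hg : Gens u M') (h : One x M' M) (h1 : ∀ y : Pnt X, u₀ ∈ y.loc M)
    (h0 : u₀ ∉ x.loc M') : Gens (cns u₀ u) M := fun y v => by
  refine ⟨fun hv => ?_, ?_⟩
  · obtain ⟨c, hc⟩ : ∃ c : k, v - c • u₀ ∈ y.loc M' := by
      by_cases e : y = x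
      · subst e
        obtain ⟨μ, -, hk, -⟩ := h.exists_fun
        have h3 : μ ⟨u₀, h1 y⟩ ≠ 0 := fun h => h0 ((hk _).1 h)
        exact ⟨_, (hk (⟨v, hv⟩ - (μ ⟨v, hv⟩ / μ ⟨u₀, h1 y⟩) • ⟨u₀, h1 y⟩)).1 (by
          rw [map_sub, map_smul, smul_eq_mul, div_mul_cancel₀ _ h3, sub_self])⟩
      · exact ⟨0, by simpa using h.off y e hv⟩
    obtain ⟨w, hw, e⟩ := (hg y _).1 hc
    exact ⟨fun o => o.elim (algebraMap k F c) w, Option.forall.2 ⟨y.O.algebraMap_mem c, hw⟩, by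
      rw [lc_cns]; simp [e]⟩
  · rintro ⟨c, hc, rfl⟩
    exact lc_mem_loc (Option.forall.2 ⟨h1 y, fun a => loc_mono h.le (hg.mem y a)⟩) hc

/-- the Koszul syzygy `b e₁ - a e₂` of a socle vector is not in `m B` -/
theorem Gens.kos_notMem (hg : Gens u M') (h0 : u₀ ∉ x.loc M') {a b : F} (hp : Par x a b)
    {e₁ e₂} (h1 : e₁ ∈ x.loc (syz X (Fib.cns u₀ u))) (h2 : e₂ ∈ x.loc (syz X (Fib.cns u₀ u)))
    (π1 : πS u₀ u e₁ = a) {κ} (hκ : jS u₀ u κ = b • e₁ - a • e₂) :
    κ ∉ x.m • x.loc (syz X u) := fun h => by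
  obtain ⟨p, hp', q, hq, e⟩ := hp.mem_m_iff.1 h
  obtain ⟨w, hw, -, h3⟩ := hp.rel ((S2At.piX fun _ => hp.s2_OX).comapX _ _)
    (add_mem h2 (jS_mem_loc.2 hp')) (sub_mem h1 (jS_mem_loc.2 hq)) (by
      rw [e, map_add, map_smul, map_smul] at hκ
      rw [smul_add, smul_sub, eq_sub_iff_add_eq, add_assoc, hκ, add_sub_cancel])
  have h4 := congrArg (πS u₀ u) h3
  rw [map_sub, πS_jS, sub_zero, π1, map_smul, smul_eq_mul, eq_comm,
    mul_eq_left₀ hp.a0] at h4
  have := hg.val_πS h0 hw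
  rw [h4, val_one] at this
  exact one_ne_zero this

end Step

section Two
variable {S : SmV k F 2} [IsAlgClosed k]

theorem locF_syz (u : ι → V) : LocF (syz S.X u) := locF_comapX (xfull_OP ι) (s2_OP ι) _ _

theorem mem_loc_OL_sub {x : Pnt S.X} {D E : S.G} {c : F} :
    c ∈ x.loc (OL S.T (E - D)) ↔ ∀ f ∈ x.loc (OL S.T D), c * f ∈ x.loc (OL S.T E) := by
  by_cases c0 : c = 0
  · simp [c0]
  refine ⟨fun h f hf => mem_loc_OL.2 fun v hv => or_iff_not_imp_left.2 fun h0 => ?_,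
    fun h => mem_loc_OL.2 fun v hv => Or.inr ?_⟩
  · have f0 := right_ne_zero_of_mul h0
    have h1 := (mem_loc_OL.1 h v hv).resolve_left c0
    have h2 := (mem_loc_OL.1 hf v hv).resolve_left f0
    rw [Finsupp.sub_apply] at h1
    rw [(S.pl.pl v).ord_mul c0 f0]
    omega
  · obtain ⟨g, g0, hg, h1⟩ := Sm2_9.exists_gen S (sne _) x.q D
    have h2 := (mem_loc_OL.1 (h g (mem_loc_i hg)) v hv).resolve_left (mul_ne_zero c0 g0)
    rw [(S.pl.pl v).ord_mul c0 g0, h1 v hv] at h2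
    rw [Finsupp.sub_apply]
    omega

/-- `Hom(M, O(E)) = O(E - D)` -/
theorem KB_OL {u : ι → F} (hu : u ≠ 0) {M : XLat S.X F} (hg : Gens u M) {D : S.G}
    (h : FC M (OL S.T D)) (E : S.G) : Eqv (KB u hu (OL S.T E)).toFam (OL S.T (E - D)).toFam := by
  refine eqv_of_le (le_of_Gm (Eventually.of_forall fun e c hc => mem_Gm_of_loc fun y =>
    mem_loc_OL_sub.2 fun f hf => ?_)) (le_of_loc fun y c hc => mem_loc_comapX.2
      (mem_loc_piX.2 fun a => mem_loc_OL_sub.1 hc _ (loc_mono h.le (hg.mem y a))))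
  have h1 := h.maps_of_s2 (g := LinearMap.lsmul F F c) (fun y => (s2_OL E y).twX e)
    (maps_of_loc fun y v hv => by
      obtain ⟨w, hw, rfl⟩ := (hg y v).1 hv
      have := lc_mem_loc (fun a => mem_loc_twX.2
        (Gm_mem_loc (x := y) (Gm_pi.1 ((mem_Gm_comap (hg := toSpan_inj hu)).1 hc) a))) hw
      convert this using 1
      simp [lc_apply, Finset.mul_sum, mul_left_comm])
  simpa [mul_assoc] using mem_loc_twX.1 (map_loc h1 hf)

variable {u₀ : V} {u : ι → V} {x : Pnt S.X} {M' M : XLat S.X V}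

/-- `Hom(B, L) → Hom(B', L)` has cokernel of length one -/
theorem one_HB (hg : Gens u M') (h : One x M' M) (h1 : ∀ y : Pnt S.X, u₀ ∈ y.loc M)
    (h0 : u₀ ∉ x.loc M') (E : S.G) :
    One x (mapX (LinearMap.lcomp F F (jS u₀ u)) (HB (cns u₀ u) (OL S.T E))) (HB u (OL S.T E)) := by
  obtain ⟨a, b, hp⟩ := exists_par x
  obtain ⟨e₁, h2, π1⟩ := hg.exists_syz hp.ha (h.m (mem_m_smul hp.ha hp.va (h1 x)))
  obtain ⟨e₂, h3, π2⟩ := hg.exists_syz hp.hb (h.m (mem_m_smul hp.hb hp.vb (h1 x)))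
  obtain ⟨κ, hκ⟩ := exists_jS (s := b • e₁ - a • e₂) (by simp [π1, π2, mul_comm])
  have h4 : κ ∈ x.loc (syz S.X u) :=
    jS_mem_loc.1 (hκ ▸ sub_mem (smul_loc hp.hb h2) (smul_loc hp.ha h3))
  obtain ⟨g, g0, hL⟩ := exists_gen_OL x E
  have hO : ∀ ψ ∈ x.loc (HB u (OL S.T E)), g⁻¹ * ψ κ ∈ x.O := fun ψ hψ =>
    (hL _).1 (mem_loc_homX.1 hψ κ h4)
  let μ : x.loc (HB u (OL S.T E)) →ₗ[k] k :=
    { toFun := fun ψ => x.val (g⁻¹ * ψ.1 κ)
      map_add' := fun φ ψ => by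
        rw [← val_add (hO _ φ.2) (hO _ ψ.2), ← mul_add]; rfl
      map_smul' := fun c ψ => by
        rw [RingHom.id_apply, smul_eq_mul, ← val_smul c (hO _ ψ.2), ← mul_smul_comm]; rfl }
  have hk : ∀ ψ, μ ψ = 0 ↔ ψ.1 ∈ x.loc
      (mapX (LinearMap.lcomp F F (jS u₀ u)) (HB (cns u₀ u) (OL S.T E))) := fun ψ => by
    rw [mem_loc_mapX]
    constructor
    · intro h5
      obtain ⟨c, hc, d, hd, e⟩ := hp.gen _ (hO _ ψ.2) h5
      obtain ⟨φ, h6, h7⟩ := exists_ext (π1 ▸ hp.a0) ψ.1 (g * d)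
      have h8 : φ e₂ = -(g * c) := mul_left_cancel₀ hp.a0 (by
        have := DFunLike.congr_fun h6 κ
        rw [LinearMap.comp_apply, hκ, map_sub, map_smul, map_smul, h7,
          (inv_mul_eq_iff_eq_mul₀ g0).1 e, smul_eq_mul, smul_eq_mul] at this
        linear_combination -this)
      refine ⟨φ, mem_loc_homX.2 fun s hs => ?_, h6⟩
      obtain ⟨c', hc', d', hd', e'⟩ := hp.gen _ (mem_loc_syz.1 hs none) (hg.val_πS h0 hs)
      obtain ⟨s', h9⟩ := exists_jS (s := s - c' • e₁ - d' • e₂) (by simp [π1, π2, πS_apply s, e'])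
      have h10 := mem_loc_homX.1 ψ.2 s'
        (jS_mem_loc.1 (h9 ▸ sub_mem (sub_mem hs (smul_loc hc' h2)) (smul_loc hd' h3)))
      rw [← h6, LinearMap.comp_apply, h9, map_sub, map_sub, map_smul, map_smul] at h10
      have h11 : φ e₁ ∈ x.loc (OL S.T E) := (hL _).2 (by rwa [h7, inv_mul_cancel_left₀ g0])
      have h12 : φ e₂ ∈ x.loc (OL S.T E) :=
        h8 ▸ neg_mem ((hL _).2 (by rwa [inv_mul_cancel_left₀ g0]))
      simpa using add_mem (add_mem h10 (smul_loc hd' h12)) (smul_loc hc' h11)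
    · rintro ⟨φ, h5, h6⟩
      have h7 := (hL _).1 (mem_loc_homX.1 h5 _ h2)
      have h8 := (hL _).1 (mem_loc_homX.1 h5 _ h3)
      change x.val (g⁻¹ * ψ.1 κ) = 0
      rw [← h6, LinearMap.lcomp_apply, hκ, map_sub, map_smul, map_smul, smul_eq_mul, smul_eq_mul,
        mul_sub, mul_left_comm, mul_left_comm _ a, val_sub (mul_mem hp.hb h7) (mul_mem hp.ha h8),
        val_mul hp.hb h7, val_mul hp.ha h8, hp.va, hp.vb]
      simp
  refine One.of_fun ⟨le_of_loc fun y ψ hψ => ?_, fun y hy ψ hψ => ?_,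
    m_smul_le fun c hc c0 ψ hψ => (hk ⟨_, smul_loc hc hψ⟩).1 ?_⟩ μ ?_ hk
  · obtain ⟨φ, h5, rfl⟩ := mem_loc_mapX.1 hψ
    exact mem_loc_homX.2 fun s hs => mem_loc_homX.1 h5 _ (jS_mem_loc.2 hs)
  · obtain ⟨e, h5, π0⟩ := hg.exists_syz (one_mem _) (by rw [one_smul]; exact h.off y hy (h1 y))
    obtain ⟨φ, h6, h7⟩ := exists_ext (π0 ▸ one_ne_zero) ψ 0
    refine mem_loc_mapX.2 ⟨φ, mem_loc_homX.2 fun s hs => ?_, h6⟩
    obtain ⟨s', h9⟩ := exists_jS (s := s - πS u₀ u s • e) (by simp [π0])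
    have h10 := mem_loc_homX.1 hψ s'
      (jS_mem_loc.1 (h9 ▸ sub_mem hs (smul_loc (mem_loc_syz.1 hs none) h5)))
    rwa [← h6, LinearMap.comp_apply, h9, map_sub, map_smul, h7, smul_zero, sub_zero] at h10
  · change x.val (g⁻¹ * (c * ψ κ)) = 0
    rw [mul_left_comm, val_mul hc (hO ψ hψ), c0, zero_mul]
  · obtain ⟨β, hβ⟩ := locF_syz u x
    obtain ⟨i, hi⟩ := not_forall.1 fun H => hg.kos_notMem h0 hp h2 h3 π1 hκ (hβ.mem_m.2 H)
    refine fun h5 => hi ⟨(hβ κ).1 h4 i, ?_⟩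
    have := DFunLike.congr_fun h5 ⟨g • β.coord i, mem_loc_homX.2 fun s hs => (hL _).2 (by
      simpa [g0] using (hβ s).1 hs i)⟩
    simpa [μ, g0] using this

theorem len_HB_cns (hg : Gens u M') (h : One x M' M) (h1 : ∀ y : Pnt S.X, u₀ ∈ y.loc M)
    (h0 : u₀ ∉ x.loc M') (E : S.G) (hf : FC (QB (cns u₀ u) (OL S.T E)) (HB (cns u₀ u) (OL S.T E))) :
    FC (QB u (OL S.T E)) (HB u (OL S.T E)) ∧ len (QB u (OL S.T E)) (HB u (OL S.T E)) =
      len (QB (cns u₀ u) (OL S.T E)) (HB (cns u₀ u) (OL S.T E)) + 1 := by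
  let ρ := LinearMap.lcomp F F (jS (F := F) u₀ u)
  have hρ : ∀ φ : Option ι → F, ρ (resH (cns u₀ u) F φ) = resH u F fun a => φ (some a) :=
    fun φ => LinearMap.ext fun s => by
      simp [ρ, resH_apply, lc_apply, Fintype.sum_option, jS]
  have h2 : Eqv (mapX ρ (QB (cns u₀ u) (OL S.T E))).toFam (QB u (OL S.T E)).toFam := fun I hI => by
    refine le_antisymm ?_ ?_
    · rintro _ ⟨_, ⟨φ, hφ, rfl⟩, rfl⟩
      exact ⟨_, mem_piFam.2 fun a => mem_piFam.1 hφ (some a), (hρ φ).symm⟩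
    · rintro _ ⟨φ, hφ, rfl⟩
      exact ⟨_, ⟨fun o => o.elim 0 φ, mem_piFam.2 (Option.forall.2 ⟨zero_mem _, mem_piFam.1 hφ⟩),
        rfl⟩, hρ _⟩
  have h3 := (hf.mapX ρ).congr h2 fun _ _ => rfl
  have h4 := one_HB hg h h1 h0 E
  refine ⟨h3.trans h4.fc, ?_⟩
  rw [h3.len_trans h4.fc, h4.len, Nat.add_right_cancel_iff]
  refine (congrFun (hq_iso hf.le h3.le (kl k ρ) (fun _ _ v hv => ⟨v, hv, rfl⟩)
    (fun I hI v hv => h2.le I hI ⟨v, hv, rfl⟩) (fun I hI ψ hψ h5 => ?_)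
    fun I hI _ ⟨v, hv, e⟩ => ⟨v, hv, by rw [e, sub_self]; exact zero_mem _⟩) 0).symm
  obtain ⟨q, hq, e⟩ := h2.symm.le I hI h5
  have h6 := sub_mem hψ (hf.le I hI hq)
  have h7 : (ψ - q) ∘ₗ jS u₀ u = 0 := (map_sub ρ ψ q).trans (sub_eq_zero.2 e.symm)
  obtain ⟨a, b, hp⟩ := exists_par x
  obtain ⟨e₁, -, π1⟩ := hg.exists_syz hp.ha (h.m (mem_m_smul hp.ha hp.va (h1 x)))
  have h8 := eq_smul_πS (π1 ▸ hp.a0) h7
  generalize (πS u₀ u e₁)⁻¹ • (ψ - q) e₁ = c at h8
  rw [← sub_add_cancel ψ q]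
  refine add_mem ⟨fun o => o.elim c 0, mem_piFam.2 (Option.forall.2 ⟨mem_of_loc hI fun y hy => ?_,
    fun _ => zero_mem _⟩), LinearMap.ext fun s => ?_⟩ hq
  · have h9 : ∀ d ∈ y.O, d • u₀ ∈ y.loc M' → d • c ∈ y.loc (OL S.T E) := fun d hd h9 => by
      obtain ⟨e, h10, rfl⟩ := hg.exists_syz hd h9
      exact h8 e ▸ mem_loc_homX.1 (hy.mem_loc hI h6) e h10
    refine s2_OL E y c fun d hd d0 => h9 d hd ?_
    by_cases e : y = x
    · subst e
      exact h.m (mem_m_smul hd d0 (h1 y))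
    · exact smul_loc hd (h.off y e (h1 y))
  · rw [h8, kl_apply, resH_apply, lc_apply, Fintype.sum_option]
    simp [πS_apply]

/-- **`Ext¹(M, O(E))` has length `n`** -/
theorem ext_len {D : S.G} (E : S.G) (l : ℕ) : ∀ {ι : Type} [Fintype ι] {u : ι → F} {M : XLat S.X F},
    Gens u M → RegL M.toLat 0 → FC M (OL S.T D) → len M (OL S.T D) = l →
    FC (QB u (OL S.T E)) (HB u (OL S.T E)) ∧ len (QB u (OL S.T E)) (HB u (OL S.T E)) = l := by
  induction l with
  | zero =>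
    intro ι _ u M hg _ h hl
    classical
    have H : Eqv (QB u (OL S.T E)).toFam (HB u (OL S.T E)).toFam :=
      eqv_of_le (QB_le _ _) (le_of_loc fun y ψ hψ => by
        obtain ⟨g, g0, hL⟩ := exists_gen_OL y D
        rw [← loc_congr (h.eqv_of_len hl)] at hL
        obtain ⟨s, hs, e⟩ := (hg y g).1 ((hL g).2 (by simp [g0]))
        refine mem_loc_mapX.2 ⟨fun a => ψ ⟨Pi.single a 1 - (g⁻¹ * u a) • s, by
          simp [e, mul_right_comm, g0]⟩, mem_loc_piX.2 fun a => mem_loc_homX.1 hψ _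
            (mem_loc_syz.2 fun b => sub_mem ?_ (mul_mem ((hL _).1 (hg.mem y a)) (hs b))),
          LinearMap.ext fun t => ?_⟩
        · rw [Pi.single_apply]
          split_ifs
          exacts [one_mem _, zero_mem _]
        · rw [resH_apply, lc_apply]
          simp only [← map_smul, ← map_sum]
          congr 1
          refine Subtype.ext ?_
          have h1 : ∑ a, t.1 a • (g⁻¹ * u a) • s = (g⁻¹ * lc F u t.1) • s := by
            simp only [lc_apply, smul_smul, ← Finset.sum_smul, Finset.mul_sum, smul_eq_mul,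
              mul_left_comm]
          simp only [AddSubmonoidClass.coe_finsetSum, SetLike.val_smul, smul_sub,
            Finset.sum_sub_distrib, h1, show lc F u t.1 = 0 from t.2, mul_zero, zero_smul, sub_zero]
          funext b
          simp [Pi.single_apply])
    exact ⟨.of_eqv H, (len_congr H.le H fun _ _ => rfl).trans (len_self _)⟩
  | succ l ih =>
    intro ι _ u M' hg hr h hl
    obtain ⟨x, M, h1, h2, h3⟩ := h.exists_bot hl
    have hr' := h1.fc.regL hr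
    obtain ⟨v, h4, h5, -⟩ := h1.ex
    obtain ⟨u₀, h6, h7⟩ := fib_surj (fun _ hd => hr'.gen hd) x h4
    rw [neg_zero, zpow_zero, one_smul] at h7
    have h8 : ∀ y : Pnt S.X, u₀ ∈ y.loc M := fun y => by simpa using Gm_mem_loc (x := y) h6
    have h9 : u₀ ∉ x.loc M' := fun h => h5 (by simpa using add_mem (h1.m h7) h)
    obtain ⟨h10, h11⟩ := ih (hg.cns h1 h8 h9) hr' h2 h3
    rw [← h11]
    exact len_HB_cns hg h1 h8 h9 E h10

variable {w : ι → F} {I J : XLat S.X F} {D E : S.G}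

theorem fc_HB (hg : Gens w I) (hr : RegL I.toLat 0) (h : FC I (OL S.T D)) (h' : FC J (OL S.T E)) :
    FC (QB w J) (HB w J) :=
  (((FC.pi fun _ => h').mapX _).trans (ext_len E _ hg hr h rfl).1).left (QB_le w J)
    (homX_mono h'.le)

theorem chi_piX (J : XLat X V) : (piX fun _ : ι => J).toFam.chi = Fintype.card ι * J.toFam.chi := by
  have h1 := cL_pi (fun _ : ι => J.toLat) 0
  rw [Finset.sum_const, Finset.card_univ, nsmul_eq_mul] at h1
  exact (twX_zero (piX fun _ : ι => J)).chi.symm.trans (h1.trans (congrArg _ (twX_zero J).chi))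

theorem h_piX (J : XLat X V) (p : ℕ) :
    (piX fun _ : ι => J).toFam.cech.h p = Fintype.card ι * J.toFam.cech.h p := by
  have h1 := hL_pi (fun _ : ι => J.toLat) 0 p
  rw [Finset.sum_const, Finset.card_univ, smul_eq_mul] at h1
  exact ((twX_zero (piX fun _ : ι => J)).H p).finrank_eq.symm.trans
    (h1.trans (congrArg _ ((twX_zero J).H p).finrank_eq))

/-- **the Euler characteristic of `Hom(B, J)`** -/
theorem chi_HB (hw : w ≠ 0) (hg : Gens w I) (hr : RegL I.toLat 0) (h : FC I (OL S.T D))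
    (h' : FC J (OL S.T E)) : (HB w J).toFam.chi = Fintype.card ι * J.toFam.chi - S.chi (E - D) +
      len I (OL S.T D) + len J (OL S.T E) := by
  obtain ⟨h1, h2⟩ := ext_len E _ hg hr h rfl
  have h3 := h1.chi
  have h4 := chi_exact (exact_KB hw (OL S.T E)) (finH _) (finH _) (finH _)
  have h5 : (KB w hw (OL S.T E)).toFam.chi = S.chi (E - D) := (KB_OL hw hg h E).chi
  have h6 := (h'.homX (hM := xfull_syz w)).chi
  rw [h'.len_homX (locF_syz w)] at h6
  rw [chi_piX, h5, h'.chi, ← finrank_ker_lc hw] at h4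
  rw [h2] at h3
  rw [← finrank_ker_lc hw]
  unfold HB at h3 ⊢
  push_cast at h4 h6 ⊢
  linear_combination h3 - h6 - h4

theorem h2_HB (hw : w ≠ 0) (hg : Gens w I) (hr : RegL I.toLat 0) (h : FC I (OL S.T D))
    (h' : FC J (OL S.T E)) (h2 : J.toFam.cech.h 2 = 0) : (HB w J).toFam.cech.h 2 = 0 := by
  rw [← (fc_HB hg hr h h').h_eq one_pos]
  exact (ne_exact (exact_KB hw J)).c_zero (by rw [h_piX, h2, mul_zero])
    (h_eq_zero_iff.2 (H_subsingleton_of_lt _ (by omega)))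

theorem h1_HB (hw : w ≠ 0) (hg : Gens w I) (hr : RegL I.toLat 0) (h : FC I (OL S.T D))
    (h' : FC J (OL S.T E)) (h1 : J.toFam.cech.h 1 = 0) (h2 : S.hh (E - D) 2 = 0) :
    (HB w J).toFam.cech.h 1 = 0 := by
  refine Nat.le_zero.1 (((fc_HB hg hr h h').h_le one_pos).trans_eq
    ((ne_exact (exact_KB hw J)).c_zero (by rw [h_piX, h1, mul_zero]) ?_))
  exact (((FC.pi fun _ => h').comapX _ (toSpan_inj hw)).h_eq one_pos).trans
    (((KB_OL hw hg h E).H 2).finrank_eq.trans h2)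

end Two

end Crest.Agent.N265.Fib
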