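import Crest.Agent.N265.Fib.L0
import Crest.Agent.N265.Ch.Num
import Crest.Agent.N265.Br.Surf
import Crest.Agent.N265.Br.Ver

/-!
# Row 265, fibrewise theory, part 1 (helper42): `X`-lattices

* `twX`, `piX`, `OP X ι = O^ι`, `mapX`, `comapX`, `supX`, `infX`;
* `AA X e = Γ(O(e))`, `genS X U p` : the lattice generated by `U` placed in degree `p`;
* on `SmV` / `Surf` : `Gm_OL`, `AA_eq`, `cL_OL`, `Surf.reg_OX`, `Surf.reg_OP`.
-/

set_option autoImplicit false
set_option linter.unusedSectionVars false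
noncomputable section

namespace Crest.Agent.N265.Fib

open Crest.Agent.R274
open Cx_781 Defs_781 Ses_781 Lat_781 Ser_781 SnapA_99 SnapB_99 SnapE_99 Gen7_750 Xs1_781 Filter
open SkDefs_474

universe u

variable {k : Type u} [Field k] {F : Type u} [Field F] [Algebra k F] {n : ℕ}
  {X : Defs_781.Var k F n}
  {V : Type u} [AddCommGroup V] [Module k V] [Module F V] [IsScalarTower k F V]
  {W : Type u} [AddCommGroup W] [Module k W] [Module F W] [IsScalarTower k F W]

/-- `M(e)` -/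
def twX (M : XLat X V) (e : ℤ) : XLat X V where
  toLat := tw M.toLat e
  A_smul := fun {_} ⟨i, hi⟩ a ha x hx => by
    rw [mem_tw_iff hi] at hx ⊢
    rw [smul_comm]
    exact M.A_smul ⟨i, hi⟩ a ha _ hx

/-- finite products -/
def piX {ι : Type} [Finite ι] (M : ι → XLat X V) : XLat X (ι → V) where
  toLat := piLat fun a => (M a).toLat
  A_smul hI a ha _ hx := mem_piFam.2 fun b => (M b).A_smul hI a ha _ (mem_piFam.1 hx b)

variable (X) in
/-- `O^ι` -/
def OP (ι : Type) [Finite ι] : XLat X (ι → F) := piX fun _ => OX X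

theorem mem_OP {ι : Type} [Finite ι] {I : Finset (Fin (n + 1))} {x : ι → F} :
    x ∈ (OP X ι).M I ↔ ∀ a, x a ∈ X.A I := mem_piFam

/-- images -/
def mapX (g : V →ₗ[F] W) (M : XLat X V) : XLat X W where
  toLat := mapL g M.toLat
  A_smul hI a ha := by
    rintro _ ⟨x, hx, rfl⟩
    exact ⟨a • x, M.A_smul hI a ha x hx, map_smul g a x⟩

/-- preimages under injective maps -/
def comapX (M : XLat X W) (g : V →ₗ[F] W) (hg : Function.Injective g) : XLat X V where
  toLat := comap M.toLat g hg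
  A_smul hI a ha x hx := by
    change g (a • x) ∈ M.M _
    rw [map_smul]
    exact M.A_smul hI a ha _ hx

theorem mem_Gm_comap {c : Coord k F n} {M : Lat c W} {g : V →ₗ[F] W} {hg : Function.Injective g}
    {e : ℤ} {x : V} : x ∈ Gm (comap M g hg) e ↔ g x ∈ Gm M e := by
  simp only [mem_Gm, ← map_smul]
  rfl

/-- sums -/
def supX (M N : XLat X V) : XLat X V where
  toLat := supL M.toLat N.toLat
  A_smul hI a ha x hx := by
    obtain ⟨y, hy, z, hz, rfl⟩ := mem_supL.1 hx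
    exact mem_supL.2 ⟨_, M.A_smul hI a ha y hy, _, N.A_smul hI a ha z hz, (smul_add a y z).symm⟩

/-- `{x ∈ M | g x ∈ N}` -/
def preX (M : XLat X V) (g : V →ₗ[F] W) (N : XLat X W) : XLat X V :=
  subLat M (fun I => M.M I ⊓ (N.M I).comap (kl k g)) (fun _ => inf_le_left)
    (fun hI hIJ _ hx => ⟨M.mono hI hIJ hx.1, N.mono hI hIJ hx.2⟩)
    (fun hI a ha x hx => ⟨M.A_smul hI a ha x hx.1, by
      change g (a • x) ∈ N.M _
      rw [map_smul]
      exact N.A_smul hI a ha _ hx.2⟩)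
    fun hI i hi j x hx => by
      obtain ⟨a, ha⟩ := M.loc hI i hi j x hx.1
      obtain ⟨b, hb⟩ := N.loc hI i hi j _ hx.2
      refine ⟨b + a, pow_smul_mem M hI hi j ha b, ?_⟩
      change g (_ • x) ∈ N.M _
      rw [map_smul, add_comm]
      exact pow_smul_mem N hI hi j hb a

theorem mem_preX {M : XLat X V} {g : V →ₗ[F] W} {N : XLat X W} {I : Finset (Fin (n + 1))}
    {x : V} : x ∈ (preX M g N).M I ↔ x ∈ M.M I ∧ g x ∈ N.M I := Iff.rfl

theorem mem_Gm_preX {M : XLat X V} {g : V →ₗ[F] W} {N : XLat X W} {e : ℤ} {x : V} :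
    x ∈ Gm (preX M g N).toLat e ↔ x ∈ Gm M.toLat e ∧ g x ∈ Gm N.toLat e := by
  simp only [mem_Gm, ← map_smul, ← forall_and]
  rfl




variable (X) in
/-- `Γ(O(e))` -/
def AA (e : ℤ) : Submodule k F := Gm (OX X).toLat e

theorem mem_AA {e : ℤ} {a : F} : a ∈ AA X e ↔ ∀ i, X.t i ^ (-e) * a ∈ X.A {i} := mem_Gm

theorem mem_Gm_OP {ι : Type} [Finite ι] {e : ℤ} {x : ι → F} :
    x ∈ Gm (OP X ι).toLat e ↔ ∀ a, x a ∈ AA X e := Gm_pi

theorem AA_smul_mem {M : XLat X V} {e f : ℤ} {a : F} (ha : a ∈ AA X e) {x : V}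
    (hx : x ∈ Gm M.toLat f) : a • x ∈ Gm M.toLat (e + f) := mem_Gm.2 fun i => by
  have := M.A_smul (Finset.singleton_nonempty i) _ (mem_AA.1 ha i) _ (mem_Gm.1 hx i)
  rwa [smul_smul, mul_right_comm, ← zpow_add₀ (X.t_ne i), ← neg_add, mul_smul] at this

theorem AA_smul_le (M : XLat X V) (e f : ℤ) : AA X e • Gm M.toLat f ≤ Gm M.toLat (e + f) :=
  Submodule.smul_le.2 fun _ ha _ hx => AA_smul_mem ha hx

theorem AA_mul_mem {e f : ℤ} {a b : F} (ha : a ∈ AA X e) (hb : b ∈ AA X f) :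
    a * b ∈ AA X (e + f) := AA_smul_mem (M := OX X) ha hb

theorem one_mem_AA : (1 : F) ∈ AA X 0 := mem_AA.2 fun _ => by
  rw [neg_zero, zpow_zero, mul_one]
  exact one_mem _

theorem T1_le_AA : T1 X.toCoord ≤ AA X 1 := fun l hl => by
  have := smul_mem_Gm hl (one_mem_AA (X := X))
  rwa [smul_eq_mul, mul_one, zero_add] at this

theorem T1_pow_le_AA (j : ℕ) : T1 X.toCoord ^ j ≤ AA X j := by
  induction j with
  | zero => rw [pow_zero, Submodule.one_le]; exact one_mem_AA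
  | succ j ih =>
    rw [pow_succ, Submodule.mul_le, Nat.cast_succ]
    exact fun a ha b hb => AA_mul_mem (ih ha) (T1_le_AA hb)

theorem msmul (A B : Submodule k F) (N : Submodule k V) : (A * B) • N = A • B • N :=
  Submodule.smul_assoc A B N

theorem gen_pow {c : Coord k F n} {M : Lat c V} {m : ℤ}
    (h : ∀ e, m ≤ e → Gm M (e + 1) = T1 c • Gm M e) {e : ℤ} (he : m ≤ e) (j : ℕ) :
    Gm M (j + e) = T1 c ^ j • Gm M e := by
  induction j with
  | zero => rw [pow_zero, Submodule.one_smul, Nat.cast_zero, zero_add]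
  | succ j ih =>
    rw [pow_succ', msmul, ← ih, ← h _ (by omega), Nat.cast_succ, add_right_comm]

theorem gen_AA {M : XLat X V} {m : ℤ}
    (h : ∀ e, m ≤ e → Gm M.toLat (e + 1) = T1 X.toCoord • Gm M.toLat e) {e : ℤ} (he : m ≤ e)
    (j : ℕ) : Gm M.toLat (j + e) = AA X j • Gm M.toLat e :=
  le_antisymm ((gen_pow h he j).le.trans (Submodule.smul_mono_left (T1_pow_le_AA j)))
    (AA_smul_le M j e)

/-! ### the lattice generated by a subspace -/

section Gen

variable (X) in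
/-- the lattice generated by `u a` placed in degree `p` -/
def genX {ι : Type} [Fintype ι] (u : ι → V) (p : ℤ) : XLat X V :=
  mapX (Fintype.linearCombination F u) (twX (OP X ι) (-p))

theorem mem_Gm_twOP {ι : Type} [Finite ι] {p e : ℤ} {x : ι → F} :
    x ∈ Gm (twX (OP X ι) (-p)).toLat (e + p) ↔ ∀ a, x a ∈ AA X e := by
  rw [← mem_Gm_OP, twX, Gm_tw, neg_add_cancel_comm_assoc]

theorem genX_le {ι : Type} [Fintype ι] {u : ι → V} {p : ℤ} {M : XLat X V}
    (h : ∀ a, u a ∈ Gm M.toLat p) : (genX X u p).toFam.LE M.toFam := by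
  rintro I ⟨i, hi⟩ _ ⟨x, hx, rfl⟩
  rw [kl_apply, Fintype.linearCombination_apply]
  refine Submodule.sum_mem _ fun a _ => ?_
  have := M.A_smul ⟨i, hi⟩ _ (mem_OP.1 ((mem_tw_iff hi).1 hx) a) _ (Gm_mem (h a) hi)
  rwa [Pi.smul_apply, smul_eq_mul, smul_smul, mul_right_comm, ← zpow_add₀ (X.t_ne i),
    neg_add_cancel, zpow_zero, one_mul] at this

theorem sum_mem_genX {ι : Type} [Fintype ι] (u : ι → V) (p : ℤ) {e : ℤ} {x : ι → F}
    (hx : ∀ a, x a ∈ AA X e) : ∑ a, x a • u a ∈ Gm (genX X u p).toLat (e + p) :=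
  map_Gm_le (g := Fintype.linearCombination F u) (M := (twX (OP X ι) (-p)).toLat)
    (N := mapL _ _) (fun _ _ x hx => ⟨x, hx, rfl⟩) (mem_Gm_twOP.2 hx)

theorem ev_Gm_genX {ι : Type} [Fintype ι] (u : ι → V) (p : ℤ) : ∀ᶠ e in atTop,
    ∀ z ∈ Gm (genX X u p).toLat (e + p), ∃ x : ι → F, (∀ a, x a ∈ AA X e) ∧ ∑ a, x a • u a = z :=
  ((tendsto_atTop_add_const_right _ p tendsto_id).eventually
    (Gm_mapL (Fintype.linearCombination F u) (twX (OP X ι) (-p)).toLat)).mono fun _ he z hz =>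
      let ⟨x, hx, h⟩ := he z hz
      ⟨x, mem_Gm_twOP.1 hx, h⟩

variable (X) in
/-- the lattice generated by `U` placed in degree `p` -/
def genS (U : Submodule k V) [Module.Finite k U] (p : ℤ) : XLat X V :=
  genX X (fun a => (Module.finBasis k U a : V)) p

variable {U : Submodule k V} [Module.Finite k U] {p : ℤ}

theorem span_finBasis (U : Submodule k V) [Module.Finite k U] :
    Submodule.span k (Set.range fun a => (Module.finBasis k U a : V)) = U := by
  rw [show (fun a => (Module.finBasis k U a : V)) = U.subtype ∘ Module.finBasis k U from rfl,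
    Set.range_comp, ← Submodule.map_span, Module.Basis.span_eq, Submodule.map_subtype_top]

theorem genS_le {M : XLat X V} (h : U ≤ Gm M.toLat p) : (genS X U p).toFam.LE M.toFam :=
  genX_le fun a => h (Module.finBasis k U a).2

theorem le_Gm_genS : U ≤ Gm (genS X U p).toLat p := by
  classical
  refine (span_finBasis U).ge.trans (Submodule.span_le.2 (Set.range_subset_iff.2 fun a => ?_))
  have := sum_mem_genX (X := X) (fun a => (Module.finBasis k U a : V)) p (e := 0)
    (x := Pi.single a 1) fun b => by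
      rw [Pi.single_apply]
      split_ifs
      exacts [one_mem_AA, zero_mem _]
  simpa [Pi.single_apply, genS] using this

theorem AA_smul_le_genS (e : ℤ) : AA X e • U ≤ Gm (genS X U p).toLat (e + p) :=
  (smul_mono_right _ le_Gm_genS).trans (AA_smul_le _ e p)

theorem ev_Gm_genS : ∀ᶠ e in atTop, Gm (genS X U p).toLat (e + p) = AA X e • U :=
  (ev_Gm_genX _ p).mono fun e he => le_antisymm (fun z hz => by
    obtain ⟨x, hx, rfl⟩ := he z hz
    exact Submodule.sum_mem _ fun a _ => Submodule.smul_mem_smul (hx a) (Module.finBasis k U a).2)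
    (AA_smul_le_genS e)

/-- a lattice whose pieces are generated from degree `p` on is generated by its piece of degree `p` -/
theorem le_genS_of_gen {M : XLat X V}
    (h : ∀ e, p ≤ e → Gm M.toLat (e + 1) = T1 X.toCoord • Gm M.toLat e) :
    M.toFam.LE (genS X (Gm M.toLat p) p).toFam := by
  refine le_of_Gm ((eventually_ge_atTop p).mono fun e he => ?_)
  obtain ⟨j, rfl⟩ : ∃ j : ℕ, e = j + p := ⟨(e - p).toNat, by omega⟩
  rw [gen_AA h le_rfl]
  exact AA_smul_le_genS j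

end Gen

theorem Gm_congr {c : Coord k F n} {M N : Lat c V} (h : Eqv M.toFam N.toFam) (e : ℤ) :
    Gm M e = Gm N e := le_antisymm (Gm_mono h.le e) (Gm_mono h.symm.le e)

theorem eqv_tw {c : Coord k F n} {M N : Lat c V} (h : Eqv M.toFam N.toFam) (e : ℤ) :
    Eqv (tw M e).toFam (tw N e).toFam := fun I ⟨i, hi⟩ => Submodule.ext fun _ => by
  rw [mem_tw_iff hi, mem_tw_iff hi, h I ⟨i, hi⟩]

theorem eqv_of_le {M N : Fam k V n} (h : M.LE N) (h' : N.LE M) : Eqv M N :=
  fun I hI => le_antisymm (h I hI) (h' I hI)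

theorem tw_piLat {c : Coord k F n} {ι : Type} [Finite ι] (M : ι → Lat c V) (e : ℤ) :
    Eqv (tw (piLat M) e).toFam (piFam fun a => (tw (M a) e).toFam) :=
  fun _ ⟨_, hi⟩ => Submodule.ext fun _ => by
    simp only [mem_tw_iff hi, mem_piFam]
    exact mem_piFam

theorem van_pi {c : Coord k F n} {ι : Type} [Finite ι] {M : ι → Lat c V} {e : ℤ} {p : ℕ}
    (h : ∀ a, Subsingleton ((tw (M a) e).H p)) : Subsingleton ((tw (piLat M) e).H p) :=
  have := H_pi_subsingleton _ p h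
  ((tw_piLat M e).H p).toEquiv.subsingleton

theorem RegL.pi {c : Coord k F n} {ι : Type} [Finite ι] {M : ι → Lat c V} {m : ℤ}
    (h : ∀ a, RegL (M a) m) : RegL (piLat M) m := fun l => van_pi fun a => h a l

theorem hL_pi {c : Coord k F n} {ι : Type} [Fintype ι] (M : ι → Lat c V) (e : ℤ) (p : ℕ) :
    hL (piLat M) e p = ∑ a, hL (M a) e p := by
  have := fun a => finite_H (tw (M a) e) p
  exact (((tw_piLat M e).H p).trans (LinearEquiv.ofBijective _
    ⟨Hpi_injective _ p, Hpi_surjective _ p⟩)).finrank_eq.trans (Module.finrank_pi_fintype k)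

theorem cL_pi {c : Coord k F n} {ι : Type} [Fintype ι] (M : ι → Lat c V) (e : ℤ) :
    cL (piLat M) e = ∑ a, cL (M a) e := by
  simp only [cL_eq, hL_pi, Nat.cast_sum, Finset.mul_sum]
  exact Finset.sum_comm

theorem cL_exact {c : Coord k F n} {U : Type u} [AddCommGroup U] [Module k U] [Module F U]
    [IsScalarTower k F U] {M₁ : Lat c U} {M₂ : Lat c V} {M₃ : Lat c W} {f : U →ₗ[F] V}
    {g : V →ₗ[F] W} (E : Exact M₁.toFam M₂.toFam M₃.toFam (kl k f) (kl k g)) (e : ℤ) :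
    cL M₂ e = cL M₁ e + cL M₃ e :=
  chi_exact (exact_tw E e) (finite_H _) (finite_H _) (finite_H _)

/-! ### smooth varieties -/

section Sm

variable (S : SmV k F n)

theorem tw_OL' (D : S.G) (e : ℤ) : Eqv (tw (OL S.T D).toLat e).toFam (S.fam (D + e • S.h)) :=
  tw_OL S.hyp D e

theorem tw_OX (e : ℤ) : Eqv (tw (OX S.X).toLat e).toFam (S.fam (e • S.h)) := by
  have := tw_OL' S 0 e
  rw [zero_add] at this
  exact (eqv_tw (fun _ hI => (S.T.zero hI).symm) e).trans this

theorem Gm_OL (D : S.G) (e : ℤ) : Gm (OL S.T D).toLat e = Sec S.T (D + e • S.h) :=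
  (tw_OL' S D e).Γ.trans (Ch.gamma_eq S _)

theorem AA_eq (e : ℤ) : AA S.X e = Sec S.T (e • S.h) := (tw_OX S e).Γ.trans (Ch.gamma_eq S _)

theorem AA_nat (m : ℕ) : AA S.X m = Sec S.T (m • S.h) := by rw [AA_eq, natCast_zsmul]

theorem cL_OL (D : S.G) (e : ℤ) : cL (OL S.T D).toLat e = S.chi (D + e • S.h) :=
  (tw_OL' S D e).chi

theorem cL_OX (e : ℤ) : cL (OX S.X).toLat e = S.chi (e • S.h) := (tw_OX S e).chi

theorem hL_OL (D : S.G) (e : ℤ) (p : ℕ) : hL (OL S.T D).toLat e p = S.hh (D + e • S.h) p :=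
  ((tw_OL' S D e).H p).finrank_eq

theorem cL_OP (ι : Type) [Fintype ι] (e : ℤ) :
    cL (OP S.X ι).toLat e = Fintype.card ι * S.chi (e • S.h) := by
  refine (cL_pi _ e).trans ?_
  simp only [cL_OX, Finset.sum_const, Finset.card_univ, nsmul_eq_mul]

end Sm

section Surf

variable (Sg : Br.Surf)

theorem van_OX {e : ℤ} (he : 0 ≤ e) {p : ℕ} (hp : 0 < p) :
    Subsingleton ((tw (OX Sg.V.X).toLat e).H p) := by
  obtain ⟨m, rfl⟩ := Int.eq_ofNat_of_zero_le he
  have := Sg.van m p hp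
  rw [← natCast_zsmul] at this
  exact ((tw_OX Sg.V m).H p).toEquiv.subsingleton

theorem van_OP (ι : Type) [Finite ι] {e : ℤ} (he : 0 ≤ e) {p : ℕ} (hp : 0 < p) :
    Subsingleton ((tw (OP Sg.V.X ι).toLat e).H p) := van_pi fun _ => van_OX Sg he hp

theorem reg_OX : RegL (OX Sg.V.X).toLat 2 :=
  regL_iff.2 ⟨van_OX Sg (by norm_num) one_pos, van_OX Sg (by norm_num) two_pos⟩

theorem reg_OP (ι : Type) [Finite ι] : RegL (OP Sg.V.X ι).toLat 2 := RegL.pi fun _ => reg_OX Sg

theorem finrank_AA {e : ℤ} (he : 0 ≤ e) :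
    (Module.finrank ℂ (AA Sg.V.X e) : ℤ) = Sg.V.chi (e • Sg.V.h) :=
  (cL_eq_of_van fun _ => van_OX Sg he).symm.trans (cL_OX _ e)

theorem finrank_Gm_OP (ι : Type) [Fintype ι] {e : ℤ} (he : 0 ≤ e) :
    (Module.finrank ℂ (Gm (OP Sg.V.X ι).toLat e) : ℤ) = Fintype.card ι * Sg.V.chi (e • Sg.V.h) :=
  (cL_eq_of_van fun _ => van_OP Sg ι he).symm.trans (cL_OP _ ι e)

theorem AA_eq_pow (m : ℕ) : AA Sg.V.X m = Submodule.span ℂ (Set.range Sg.t) ^ m :=
  Submodule.ext fun f => by rw [AA_nat, Sg.gen, Br.mem_span_pow]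

end Surf

end Crest.Agent.N265.Fib
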